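import Vale.Agent.P344.Power

/-!
Matrices that factor into few pairing layers, and the cost of their tensor products.
-/

namespace Vale.Agent.P344

open Finset Matrix

/-- at most one nonzero entry in each row -/
def Mono {ι : Type} (M : Matrix ι ι ℂ) : Prop := ∃ π : ι → ι, ∀ i j, j ≠ π i → M i j = 0

open scoped Classical in
/-- the layer attached to an involution -/
noncomputable def Lam {ι : Type} (σ : ι → ι) : Matrix ι ι ℂ :=
  fun i j => (if i = j then cc 0 else 0) + (if σ i = j then cc 1 else 0)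

lemma Lam_apply {ι : Type} [DecidableEq ι] (σ : ι → ι) (i j : ι) :
    Lam σ i j = (if i = j then cc 0 else 0) + (if σ i = j then cc 1 else 0) := by
  unfold Lam; congr

lemma cc_sum : cc 0 + cc 1 = 1 := by simp [cc]; ring

inductive Dep {ι : Type} [Fintype ι] : ℕ → Matrix ι ι ℂ → Prop
  | base {M : Matrix ι ι ℂ} : Mono M → Dep 0 M
  | step {D : ℕ} {M N : Matrix ι ι ℂ} (σ : ι → ι) : Dep D M → Function.Involutive σ → Mono N →
      Dep (D + 1) (N * Lam σ * M)

section
variable {ι κ : Type}

lemma Mono.mul [Fintype ι] {M N : Matrix ι ι ℂ} (hM : Mono M) (hN : Mono N) : Mono (M * N) := by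
  obtain ⟨π, hπ⟩ := hM
  obtain ⟨π', hπ'⟩ := hN
  refine ⟨fun i => π' (π i), fun i j hj => ?_⟩
  rw [Matrix.mul_apply]
  refine sum_eq_zero fun k _ => ?_
  by_cases hk : k = π i
  · rw [hπ' k j (hk ▸ hj), mul_zero]
  · rw [hπ i k hk, zero_mul]

lemma Mono.diagonal [DecidableEq ι] (d : ι → ℂ) : Mono (diagonal d) :=
  ⟨id, fun _ _ h => diagonal_apply_ne _ (Ne.symm h)⟩

lemma Mono.one [DecidableEq ι] : Mono (1 : Matrix ι ι ℂ) := Mono.diagonal _

lemma Mono.reindex {M : Matrix ι ι ℂ} (h : Mono M) (e : κ ≃ ι) : Mono (M.submatrix e e) := by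
  obtain ⟨π, hπ⟩ := h
  exact ⟨fun i => e.symm (π (e i)), fun i j hj => hπ _ _ fun h => hj (by simp only [← h, Equiv.symm_apply_apply])⟩

lemma Mono.sum {M : Matrix ι ι ℂ} {N : Matrix κ κ ℂ} (hM : Mono M) (hN : Mono N) :
    Mono (fromBlocks M 0 0 N) := by
  obtain ⟨π, hπ⟩ := hM
  obtain ⟨π', hπ'⟩ := hN
  refine ⟨Sum.map π π', ?_⟩
  rintro (i | i) (j | j) h
  · exact hπ _ _ (by simpa using h)
  · rfl
  · rfl
  · exact hπ' _ _ (by simpa using h)

lemma Mono.blockDiag [DecidableEq κ] {M : κ → Matrix ι ι ℂ} (h : ∀ k, Mono (M k)) :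
    Mono (blockDiagonal M) := by
  choose π hπ using h
  refine ⟨fun p => (π p.2 p.1, p.2), ?_⟩
  rintro ⟨i, k⟩ ⟨j, k'⟩ h
  rw [blockDiagonal_apply]
  split_ifs with hk
  · simp only at hk; subst hk
    exact hπ _ _ _ (by simpa using h)
  · rfl

lemma Mono.cost [Fintype ι] {M : Matrix ι ι ℂ} (h : Mono M) : Cost M (Fintype.card ι) := by
  obtain ⟨π, hπ⟩ := h
  intro V _ _ v
  have := RR.range (S := Set.range v) (x := 1) (app M v) fun r =>
    RR.gate (Or.inr ⟨M r (π r), v (π r), Or.inl ⟨_, rfl⟩, by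
      unfold app
      rw [sum_eq_single (π r) (fun j _ hj => by rw [hπ r j hj, zero_smul]) (by simp)]⟩)
  simpa using this

lemma Lam_id [DecidableEq ι] : Lam (id : ι → ι) = 1 := by
  ext i j
  rw [Lam_apply, one_apply]
  by_cases h : i = j <;> simp [h, cc_sum]

variable [Fintype ι]

lemma Dep.zero_iff {M : Matrix ι ι ℂ} : Dep 0 M ↔ Mono M :=
  ⟨fun h => by cases h; assumption, Dep.base⟩

lemma Dep.succ_iff {D : ℕ} {M : Matrix ι ι ℂ} : Dep (D + 1) M ↔
    ∃ M' σ N, Dep D M' ∧ Function.Involutive σ ∧ Mono N ∧ M = N * Lam σ * M' :=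
  ⟨fun h => by cases h with | step σ a b c => exact ⟨_, σ, _, a, b, c, rfl⟩,
    by rintro ⟨M', σ, N, a, b, c, rfl⟩; exact Dep.step σ a b c⟩

lemma Dep.mono_left {D : ℕ} {M N : Matrix ι ι ℂ} (hN : Mono N) (h : Dep D M) : Dep D (N * M) := by
  cases h with
  | base h => exact Dep.base (hN.mul h)
  | step σ a b c =>
    rw [← Matrix.mul_assoc, ← Matrix.mul_assoc]
    exact Dep.step σ a b (hN.mul c)

lemma Dep.succ {D : ℕ} {M : Matrix ι ι ℂ} (h : Dep D M) : Dep (D + 1) M := by
  classical
  have := Dep.step id h (fun _ => rfl) Mono.one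
  rwa [Lam_id, Matrix.one_mul, Matrix.one_mul] at this

lemma Dep.le {D D' : ℕ} {M : Matrix ι ι ℂ} (h : Dep D M) (hD : D ≤ D') : Dep D' M := by
  induction hD with
  | refl => exact h
  | step _ ih => exact ih.succ

lemma Mono.dep {M : Matrix ι ι ℂ} (h : Mono M) (D : ℕ) : Dep D M := (Dep.base h).le (Nat.zero_le _)

lemma Dep.mul {D D' : ℕ} {M N : Matrix ι ι ℂ} (hM : Dep D M) (hN : Dep D' N) :
    Dep (D + D') (M * N) := by
  induction hM with
  | base h => rw [zero_add]; exact hN.mono_left h
  | step σ _ b c ih =>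
    rw [Matrix.mul_assoc, add_right_comm]
    exact Dep.step σ ih b c

lemma Dep.mono_right {D : ℕ} {M N : Matrix ι ι ℂ} (h : Dep D M) (hN : Mono N) : Dep D (M * N) :=
  h.mul (Dep.base hN)

lemma Dep.lam {σ : ι → ι} (h : Function.Involutive σ) : Dep 1 (Lam σ) := by
  classical
  have := Dep.step σ (Dep.base Mono.one) h Mono.one
  rwa [Matrix.one_mul, Matrix.mul_one] at this

variable [Fintype κ]

lemma Dep.reindex {D : ℕ} {M : Matrix ι ι ℂ} (h : Dep D M) (e : κ ≃ ι) :
    Dep D (M.submatrix e e) := by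
  classical
  induction h with
  | base h => exact Dep.base (h.reindex e)
  | step σ _ b c ih =>
    rw [← submatrix_mul_equiv _ _ _ e, ← submatrix_mul_equiv _ _ _ e]
    have : (Lam σ).submatrix e e = Lam fun i => e.symm (σ (e i)) := by
      ext i j
      simp only [submatrix_apply, Lam_apply, EmbeddingLike.apply_eq_iff_eq, Equiv.symm_apply_eq]
    rw [this]
    exact Dep.step _ ih (fun i => by simp [b (e i)]) (c.reindex e)

lemma Dep.sum {D : ℕ} {M : Matrix ι ι ℂ} {N : Matrix κ κ ℂ} (hM : Dep D M) (hN : Dep D N) :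
    Dep D (fromBlocks M 0 0 N) := by
  classical
  induction D generalizing M N with
  | zero => exact Dep.base ((Dep.zero_iff.mp hM).sum (Dep.zero_iff.mp hN))
  | succ D ih =>
    obtain ⟨M', σ, A, a, b, c, rfl⟩ := Dep.succ_iff.mp hM
    obtain ⟨N', σ', A', a', b', c', rfl⟩ := Dep.succ_iff.mp hN
    have := Dep.step (Sum.map σ σ') (ih a a')
      (by rintro (i | i); exacts [by simp [b i], by simp [b' i]]) (c.sum c')
    have e : Lam (Sum.map σ σ') = fromBlocks (Lam σ) 0 0 (Lam σ') := by
      ext (i | i) (j | j) <;> simp [Lam_apply]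
    rw [e] at this
    simpa [fromBlocks_multiply] using this

lemma Dep.blockDiag [DecidableEq κ] {D : ℕ} {M : κ → Matrix ι ι ℂ} (h : ∀ k, Dep D (M k)) :
    Dep D (blockDiagonal M) := by
  classical
  induction D generalizing M with
  | zero => exact Dep.base (Mono.blockDiag fun k => Dep.zero_iff.mp (h k))
  | succ D ih =>
    choose M' σ A a b c e using fun k => Dep.succ_iff.mp (h k)
    have := Dep.step (fun p : ι × κ => (σ p.2 p.1, p.2)) (ih a) (fun p => by simp [b p.2 p.1])
      (Mono.blockDiag c)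
    have e2 : Lam (fun p : ι × κ => (σ p.2 p.1, p.2)) = blockDiagonal fun k => Lam (σ k) := by
      ext ⟨i, k⟩ ⟨j, k'⟩
      rw [blockDiagonal_apply, Lam_apply]
      by_cases hk : k = k'
      · subst hk; simp [Lam_apply]
      · simp [hk]
    rw [e2, ← blockDiagonal_mul, ← blockDiagonal_mul] at this
    have e3 : M = fun k => A k * Lam (σ k) * M' k := funext e
    rwa [e3]

end

section tensor
variable {I : Type} [Fintype I] [DecidableEq I] {ι : I → Type} [∀ i, Fintype (ι i)]

/-- the tensor product of a family of matrices -/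
def piKron (M : ∀ i, Matrix (ι i) (ι i) ℂ) : Matrix (∀ i, ι i) (∀ i, ι i) ℂ :=
  fun x y => ∏ i, M i (x i) (y i)

lemma piKron_mul (M N : ∀ i, Matrix (ι i) (ι i) ℂ) :
    piKron (fun i => M i * N i) = piKron M * piKron N := by
  ext x y
  simp only [piKron, Matrix.mul_apply]
  rw [prod_univ_sum, Fintype.piFinset_univ]
  simp only [prod_mul_distrib]

omit [DecidableEq I] [∀ i, Fintype (ι i)] in
lemma Mono.piKron {M : ∀ i, Matrix (ι i) (ι i) ℂ} (h : ∀ i, Mono (M i)) : Mono (piKron M) := by
  choose π hπ using h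
  refine ⟨fun x i => π i (x i), fun x y hy => ?_⟩
  obtain ⟨i, hi⟩ := Function.ne_iff.mp hy
  exact prod_eq_zero (mem_univ i) (hπ i _ _ hi)

lemma rep_count {ι : Type} [Fintype ι] [DecidableEq ι] {σ : ι → ι} (h : Function.Involutive σ) :
    ∑ x ∈ univ.filter (fun x => ord x ≤ ord (σ x)), (if σ x ≠ x then 2 else 1) ≤
      Fintype.card ι := by
  have e : ∀ x, (if σ x ≠ x then 2 else 1) = 1 + if σ x ≠ x then 1 else 0 := by
    intro x; split_ifs <;> rfl
  simp only [e, sum_add_distrib, sum_const, smul_eq_mul, mul_one, ← card_filter]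
  rw [← card_univ, ← card_filter_add_card_filter_not (s := univ) (fun x => ord x ≤ ord (σ x))]
  apply Nat.add_le_add_left
  apply card_le_card_of_injOn σ
  · intro x hx
    simp only [coe_filter, mem_filter, mem_univ, true_and, Set.mem_ofPred_eq] at hx ⊢
    rw [h x]
    have : ord x ≠ ord (σ x) := fun e => hx.2 (ord_inj e).symm
    omega
  · exact h.injective.injOn

lemma cost_piKron_Lam {τ : ℝ} (hτ : 0 ≤ τ) (hC : ∀ s ≤ Fintype.card I, PC s τ)
    (σ : ∀ i, ι i → ι i) (hσ : ∀ i, Function.Involutive (σ i)) :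
    Cost (piKron fun i => Lam (σ i)) (τ * Fintype.card (∀ i, ι i)) := by
  classical
  intro V _ _ z
  let emb : (x0 : ∀ i, ι i) → ({i // σ i (x0 i) ≠ x0 i} → ZMod 2) → ∀ i, ι i := fun x0 s i =>
    if h : σ i (x0 i) ≠ x0 i then (if s ⟨i, h⟩ = 0 then x0 i else σ i (x0 i)) else x0 i
  have key : ∀ x0 t, app (piKron fun i => Lam (σ i)) z (emb x0 t) =
      app (Cpow {i // σ i (x0 i) ≠ x0 i}) (fun s => z (emb x0 s)) t := by
    intro x0 t
    unfold app
    symm
    apply sum_of_injOn (emb x0)
    · intro s _ s' _ e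
      funext ⟨i, hi⟩
      have := congrFun e i
      simp only [emb, dif_pos hi] at this
      rcases z2_cases (s ⟨i, hi⟩) with a | a <;> rcases z2_cases (s' ⟨i, hi⟩) with b | b
      · rw [a, b]
      · simp only [a, b, one_ne_zero, if_true, if_false] at this; exact absurd this.symm hi
      · simp only [a, b, one_ne_zero, if_true, if_false] at this; exact absurd this hi
      · rw [a, b]
    · intro _ _; simp
    · intro y _ hy
      have : ∃ i, y i ≠ x0 i ∧ y i ≠ σ i (x0 i) := by
        by_contra hc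
        push Not at hc
        apply hy
        refine ⟨fun k => if y k.1 = x0 k.1 then 0 else 1, by simp, ?_⟩
        funext i
        simp only [emb]
        by_cases h1 : y i = x0 i
        · simp [h1]
        · have h2 := hc i h1
          have h3 : σ i (x0 i) ≠ x0 i := fun e => h1 (h2.trans e)
          simp [h1, ← h2]
      obtain ⟨i, h1, h2⟩ := this
      have : Lam (σ i) (emb x0 t i) (y i) = 0 := by
        rw [Lam_apply]
        simp only [emb]
        split_ifs <;> simp_all [hσ i (x0 i)]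
      unfold piKron
      rw [prod_eq_zero (mem_univ i) this, zero_smul]
    · intro s _
      congr 1
      have : ∀ i, Lam (σ i) (emb x0 t i) (emb x0 s i) =
          if h : σ i (x0 i) ≠ x0 i then cc (t ⟨i, h⟩ + s ⟨i, h⟩) else 1 := by
        intro i
        rw [Lam_apply]
        by_cases h : σ i (x0 i) ≠ x0 i
        · simp only [emb, dif_pos h]
          rcases z2_cases (t ⟨i, h⟩) with a | a <;> rcases z2_cases (s ⟨i, h⟩) with b | b <;>
            simp [a, b, h, h.symm, hσ i (x0 i), z2_add_self]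
        · simp only [emb, dif_neg h]
          push Not at h
          simp [h, cc_sum]
      simp only [piKron, this, Cpow]
      rw [Fintype.prod_dite]
      simp
  set R := Fintype.piFinset fun i => univ.filter fun x : ι i => ord x ≤ ord (σ i x) with hR
  have hfam := RR.fam (S := Set.range z) R _
    (fun x0 => Set.range (app (Cpow {i // σ i (x0 i) ≠ x0 i}) fun s => z (emb x0 s)))
    (fun x0 _ => (hC _ (Fintype.card_subtype_le _) _ rfl V _).left
      (by rintro _ ⟨s, rfl⟩; exact ⟨_, rfl⟩))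
  refine (hfam.right ?_).mono ?_
  · rintro _ ⟨x, rfl⟩
    simp only [Set.mem_iUnion]
    refine ⟨fun i => if ord (x i) ≤ ord (σ i (x i)) then x i else σ i (x i), ?_,
      fun k => if ord (x k.1) ≤ ord (σ k.1 (x k.1)) then 0 else 1, ?_⟩
    · rw [hR, Fintype.mem_piFinset]
      intro i
      simp only [mem_filter, mem_univ, true_and]
      split_ifs with h
      · exact h
      · rw [hσ i]; omega
    · rw [← key]
      congr 1
      funext i
      simp only [emb]
      by_cases h : ord (x i) ≤ ord (σ i (x i))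
      · simp [h]
      · have h2 : x i ≠ σ i (x i) := fun e => h (by rw [← e])
        simp [h, hσ i (x i), h2]
  · rw [← mul_sum]
    apply mul_le_mul_of_nonneg_left _ hτ
    have e : ∀ x0 : ∀ i, ι i, 2 ^ Fintype.card {i // σ i (x0 i) ≠ x0 i} =
        ∏ i, (if σ i (x0 i) ≠ x0 i then 2 else 1) := by
      intro x0
      rw [prod_ite, prod_const, prod_const_one, mul_one, Fintype.card_subtype]
    have : ∑ x0 ∈ R, 2 ^ Fintype.card {i // σ i (x0 i) ≠ x0 i} ≤ Fintype.card (∀ i, ι i) := by
      simp only [e]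
      rw [hR, ← prod_univ_sum (fun i => univ.filter fun x : ι i => ord x ≤ ord (σ i x))
        (fun i x => if σ i x ≠ x then 2 else 1), Fintype.card_pi]
      exact prod_le_prod' fun i _ => rep_count (hσ i)
    exact_mod_cast this

theorem cost_piKron {τ : ℝ} (hτ : 0 ≤ τ) (hC : ∀ s ≤ Fintype.card I, PC s τ) (D : ℕ)
    (M : ∀ i, Matrix (ι i) (ι i) ℂ) (h : ∀ i, Dep D (M i)) :
    Cost (piKron M) ((1 + D * (τ + 1)) * Fintype.card (∀ i, ι i)) := by
  induction D generalizing M with
  | zero => simpa using (Mono.piKron fun i => Dep.zero_iff.mp (h i)).cost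
  | succ D ih =>
    choose M' σ A a b c e using fun i => Dep.succ_iff.mp (h i)
    have e3 : M = fun i => A i * Lam (σ i) * M' i := funext e
    rw [e3, piKron_mul, piKron_mul]
    refine (((Mono.piKron c).cost.mul (cost_piKron_Lam hτ hC σ b)).mul (ih M' a)).mono
      (le_of_eq ?_)
    push_cast; ring

end tensor

end Vale.Agent.P344
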