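import Vale.Agent.P344.Shear

/-!
Fourier matrices of small order have small depth once sixteen copies are available.
-/

namespace Vale.Agent.P344

open Finset Matrix Complex Real

noncomputable def ee (n : ℕ) (t : ℤ) : ℂ := Complex.exp (2 * π * I * t / n)

lemma ee_add (n : ℕ) (s t : ℤ) : ee n (s + t) = ee n s * ee n t := by
  unfold ee; rw [← Complex.exp_add]; congr 1; push_cast; ring

lemma ee_double (n : ℕ) (t : ℤ) : ee (n * 2) (2 * t) = ee n t := by
  unfold ee; congr 1; push_cast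
  by_cases h : (n : ℂ) = 0
  · simp [h]
  · field_simp

lemma ee_period (n : ℕ) (hn : n ≠ 0) (t : ℤ) : ee n (n * t) = 1 := by
  unfold ee
  have : (n : ℂ) ≠ 0 := by exact_mod_cast hn
  rw [← Complex.exp_int_mul_two_pi_mul_I t]; congr 1; push_cast; field_simp

lemma ee_half (n : ℕ) (hn : n ≠ 0) : ee (n * 2) n = -1 := by
  unfold ee
  have : (n : ℂ) ≠ 0 := by exact_mod_cast hn
  rw [← Complex.exp_pi_mul_I]; congr 1; push_cast; field_simp

lemma ee_zero (n : ℕ) : ee n 0 = 1 := by simp [ee]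

/-- the Fourier matrix on `Fin n` -/
noncomputable def Fd (n : ℕ) : Matrix (Fin n) (Fin n) ℂ := fun j k => ee n ((j : ℕ) * (k : ℕ))

lemma dep_Fd_double {m D : ℕ} (hm : m ≠ 0) (h : Dep D (Fd m)) : Dep (D + 1) (Fd (m * 2)) := by
  let ein : Fin 2 × Fin m ≃ Fin (m * 2) := (Equiv.prodComm _ _).trans finProdFinEquiv
  let eout : Fin 2 × Fin m ≃ Fin (m * 2) := finProdFinEquiv.trans (finCongr (mul_comm _ _))
  have h1 := ((Dep.blockDiag fun _ : Fin m => dep_H).mono_right
    (Mono.diagonal fun p : Fin 2 × Fin m => ee (m * 2) ((p.2 : ℕ) * (p.1 : ℕ)))).mul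
    ((Dep.blockDiag fun _ : Fin 2 => h).reindex (Equiv.prodComm (Fin 2) (Fin m)))
  have h2 := h1.reindex2 eout.symm ein.symm
  rw [add_comm]
  convert h2 using 1
  have : (Fd (m * 2)).submatrix eout ein =
      blockDiagonal (fun _ : Fin m => (!![1, 1; 1, -1] : Matrix (Fin 2) (Fin 2) ℂ)) *
        (diagonal fun p : Fin 2 × Fin m => ee (m * 2) ((p.2 : ℕ) * (p.1 : ℕ))) *
        (blockDiagonal fun _ : Fin 2 => Fd m).submatrix (Equiv.prodComm (Fin 2) (Fin m))
          (Equiv.prodComm (Fin 2) (Fin m)) := by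
    ext ⟨b', j⟩ ⟨b, k⟩
    rw [Matrix.mul_apply, sum_eq_single (b, j)]
    · simp only [mul_diagonal, blockDiagonal_apply, submatrix_apply, Equiv.prodComm_apply,
        Prod.swap_prod_mk, if_true, Fd, ein, eout, Equiv.trans_apply, finCongr_apply, Fin.val_cast,
        finProdFinEquiv_apply_val]
      have e : ((j + m * b' : ℕ) : ℤ) * ((b + 2 * k : ℕ) : ℤ) =
          (m * (b' * b) + (j : ℕ) * (b : ℕ)) + 2 * ((j : ℕ) * (k : ℕ)) +
            (m * 2 : ℕ) * ((b' : ℕ) * (k : ℕ) : ℤ) := by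
        push_cast; ring
      rw [e, ee_add, ee_add, ee_add, ee_double, ee_period _ (by omega), mul_one]
      congr 2
      fin_cases b <;> fin_cases b' <;> simp [ee_zero, ee_half m hm]
    · rintro ⟨c, l⟩ _ hne
      by_cases h1 : j = l
      · have : c ≠ b := fun h => hne (by rw [h, h1])
        simp [blockDiagonal_apply, this]
      · simp [blockDiagonal_apply, h1]
    · simp
  rw [← this]; simp

lemma dep_Fd_pow (j : ℕ) : Dep j (Fd (2 ^ j)) := by
  induction j with
  | zero => exact Dep.base ⟨id, fun i k h => absurd (Subsingleton.elim (α := Fin 1) _ _) h⟩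
  | succ j ih => exact dep_Fd_double (pow_ne_zero _ two_ne_zero) ih

/-- the Fourier matrix on `ZMod q` -/
noncomputable def F (q : ℕ) [NeZero q] : Matrix (ZMod q) (ZMod q) ℂ :=
  fun j k => ZMod.stdAddChar (j * k)

lemma F_val (q : ℕ) [NeZero q] (j k : ZMod q) : F q j k = ee q ((j.val : ℤ) * (k.val : ℤ)) := by
  unfold F ee
  rw [← ZMod.stdAddChar_coe]; congr 1; simp

def zf (q : ℕ) [NeZero q] : ZMod q ≃ Fin q :=
  ⟨fun x => ⟨x.val, ZMod.val_lt x⟩, fun i => ((i : ℕ) : ZMod q), fun x => by simp,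
    fun i => by ext; simp [ZMod.val_natCast, Nat.mod_eq_of_lt i.2]⟩

lemma dep_F_pow (j : ℕ) : Dep j (F (2 ^ j)) := by
  have := (dep_Fd_pow j).reindex (zf (2 ^ j))
  convert this using 1
  ext a b; rw [F_val]; rfl

section bichar
variable {G G' : Type} [AddCommGroup G] [Fintype G] [DecidableEq G]

structure Bichar (B : Matrix G G ℂ) : Prop where
  add : ∀ a b ξ, B (a + b) ξ = B a ξ * B b ξ
  symm : ∀ a b, B a b = B b a
  orth : ∀ a, ∑ ξ, B a ξ = if a = 0 then (Fintype.card G : ℂ) else 0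

def Circ (c : G → ℂ) : Matrix G G ℂ := fun a b => c (a - b)

lemma Bichar.circ {B : Matrix G G ℂ} (h : Bichar B) (c : G → ℂ) :
    ∃ d, Circ c = B * diagonal d * B.submatrix id Neg.neg := by
  refine ⟨fun ξ => (Fintype.card G : ℂ)⁻¹ * ∑ g, c g * B (-g) ξ, ?_⟩
  ext a b
  have hN : (Fintype.card G : ℂ) ≠ 0 := by exact_mod_cast Fintype.card_ne_zero
  simp only [Matrix.mul_apply (M := B * _), mul_diagonal, submatrix_apply, id, Circ]
  have : ∀ ξ, B a ξ * ((Fintype.card G : ℂ)⁻¹ * ∑ g, c g * B (-g) ξ) * B ξ (-b) =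
      ∑ g, (Fintype.card G : ℂ)⁻¹ * c g * B (a - b - g) ξ := by
    intro ξ
    simp only [mul_sum, sum_mul]
    refine sum_congr rfl fun g _ => ?_
    rw [sub_eq_add_neg, sub_eq_add_neg, h.add, h.add, h.symm ξ]; ring
  simp only [this]
  rw [sum_comm]
  simp only [← mul_sum, h.orth, sub_eq_zero]
  rw [sum_eq_single (a - b) (fun g _ hg => by simp [Ne.symm hg]) (by simp)]
  simp only [if_true]; field_simp

lemma Bichar.inv {B : Matrix G G ℂ} (h : Bichar B) :
    B * ((Fintype.card G : ℂ)⁻¹ • B.submatrix id Neg.neg) = 1 := by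
  rw [Matrix.mul_smul]
  ext a b
  have hN : (Fintype.card G : ℂ) ≠ 0 := by exact_mod_cast Fintype.card_ne_zero
  simp only [Matrix.smul_apply, Matrix.mul_apply, submatrix_apply, id,
    h.symm _ (-b), ← h.add, h.orth, one_apply, add_neg_eq_zero, smul_eq_mul]
  split_ifs
  · field_simp
  · simp

lemma Bichar.sq {B : Matrix G G ℂ} (h : Bichar B) : Mono (B * B) := by
  refine ⟨Neg.neg, fun a b hb => ?_⟩
  simp only [Matrix.mul_apply, h.symm _ b, ← h.add, h.orth]
  rw [if_neg]
  intro e; exact hb (eq_neg_of_add_eq_zero_right e)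

lemma Bichar.prod [AddCommGroup G'] [Fintype G'] [DecidableEq G'] {B : Matrix G G ℂ}
    {B' : Matrix G' G' ℂ} (h : Bichar B) (h' : Bichar B') :
    Bichar (G := G × G') fun p p' => B p.1 p'.1 * B' p.2 p'.2 := by
  refine ⟨fun a b ξ => ?_, fun a b => ?_, fun a => ?_⟩
  · simp only [Prod.fst_add, Prod.snd_add, h.add, h'.add]; ring
  · simp only [h.symm a.1, h'.symm a.2]
  · rw [Fintype.sum_prod_type]
    simp only [← mul_sum, ← sum_mul, h.orth, h'.orth, Prod.ext_iff, Prod.fst_zero, Prod.snd_zero,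
      Fintype.card_prod]
    by_cases h1 : a.1 = 0 <;> by_cases h2 : a.2 = 0 <;> simp [h1, h2]

lemma Bichar.pi {I : Type} [Fintype I] [DecidableEq I] {ι : I → Type} [∀ i, AddCommGroup (ι i)]
    [∀ i, Fintype (ι i)] [∀ i, DecidableEq (ι i)] {B : ∀ i, Matrix (ι i) (ι i) ℂ}
    (h : ∀ i, Bichar (B i)) : Bichar (piKron B) := by
  refine ⟨fun a b ξ => ?_, fun a b => ?_, fun a => ?_⟩
  · simp only [piKron, Pi.add_apply, (h _).add, prod_mul_distrib]
  · exact prod_congr rfl fun i _ => (h i).symm _ _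
  · simp only [piKron]
    rw [← Fintype.piFinset_univ, ← prod_univ_sum (fun _ => univ) fun i x => B i (a i) x]
    simp only [(h _).orth]
    split_ifs with ha
    · simp [ha]
    · obtain ⟨i, hi⟩ := Function.ne_iff.mp ha
      exact prod_eq_zero (mem_univ i) (if_neg hi)

end bichar

lemma bichar_F (q : ℕ) [NeZero q] : Bichar (F q) := by
  refine ⟨fun a b ξ => ?_, fun a b => ?_, fun a => ?_⟩
  · simp only [F, add_mul, AddChar.map_add_eq_mul]
  · simp only [F, mul_comm]
  · simp only [F, mul_comm a]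
    rw [AddChar.sum_mulShift _ (ZMod.isPrimitive_stdAddChar q)]
    split_ifs <;> simp

lemma bluestein {G X : Type} [AddCommGroup G] (n : ℕ) (φ : ℤ →+ G)
    (hφ : ∀ d : ℤ, |d| < 2 * n → φ d = 0 → d = 0) (val : X → ℕ) (hv : ∀ x, val x < n) :
    ∃ (w : X → ℂ) (c : G → ℂ), ∀ j k,
      ee n (val j * val k) = w j * c (φ (val j) - φ (val k)) * w k := by
  classical
  refine ⟨fun j => ee (n * 2) ((val j : ℤ) ^ 2),
    fun g => ∑ d ∈ Ioo (-(n : ℤ)) n, if φ d = g then ee (n * 2) (-d ^ 2) else 0, fun j k => ?_⟩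
  have h1 := hv j
  have h2 := hv k
  simp only
  rw [sum_eq_single ((val j : ℤ) - val k)]
  · rw [if_pos (map_sub φ _ _), ← ee_add, ← ee_add, ← ee_double]
    congr 1; ring
  · intro d hd hne
    rw [if_neg]
    intro e
    rw [mem_Ioo] at hd
    rw [← map_sub, ← sub_eq_zero, ← map_sub] at e
    have := hφ _ (by rw [abs_lt]; constructor <;> omega) e
    omega
  · intro h; exact absurd (mem_Ioo.mpr ⟨by omega, by omega⟩) h

lemma inj_of_short {G : Type} [AddCommGroup G] (n : ℕ) (φ : ℤ →+ G)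
    (hφ : ∀ d : ℤ, |d| < 2 * n → φ d = 0 → d = 0) {a b : ℕ} (ha : a < n) (hb : b < n)
    (h : φ a = φ b) : a = b := by
  rw [← sub_eq_zero, ← map_sub] at h
  have := hφ _ (by rw [abs_lt]; constructor <;> omega) h
  omega

section small
variable {Z : Type} [Fintype Z] [DecidableEq Z]

lemma sh_circ (j : ℕ) {w2 w1 : ZMod (2 ^ j) → Z} (h2 : Function.Injective w2)
    (h1 : Function.Injective w1) (h : ∀ a b, w1 a ≠ w2 b) (c : ZMod (2 ^ j) → ℂ) :
    Sh (3 + 4 * j) w2 w1 (Circ c) := by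
  obtain ⟨d, hd⟩ := (bichar_F (2 ^ j)).circ c
  have hi := (bichar_F (2 ^ j)).inv
  have a := (Sh.diag h2 h1 (fun a b e => h b a e.symm) d).conj_left h2 h (dep_F_pow j) hi
  have hi2 : (F (2 ^ j)).submatrix id Neg.neg *
      ((Fintype.card (ZMod (2 ^ j)) : ℂ)⁻¹ • F (2 ^ j)) = 1 := by
    rw [← mul_eq_one_comm.mp hi, Matrix.mul_smul, Matrix.smul_mul]
  have b := a.conj_right h1 h ((dep_F_pow j).reindex2 (Equiv.refl _) (Equiv.neg _)) hi2
  rw [hd]
  exact Dep.le b (by omega)

lemma sh_F {q j : ℕ} [NeZero q] (hq : 2 * q ≤ 2 ^ j) {y x : ZMod q → Z}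
    {w2 w1 : ZMod (2 ^ j) → Z} (hy : Function.Injective y) (hx : Function.Injective x)
    (h2 : Function.Injective w2) (h1 : Function.Injective w1) (hxy : ∀ a b, x a ≠ y b)
    (h12 : ∀ a b, w1 a ≠ w2 b) (hx1 : ∀ a b, x a ≠ w1 b) (hx2 : ∀ a b, x a ≠ w2 b)
    (hy2 : ∀ a b, y a ≠ w2 b) (s : ℂ) : Sh (30 + 16 * j) y x (s • F q) := by
  have hφ : ∀ d : ℤ, |d| < 2 * q → Int.castAddHom (ZMod (2 ^ j)) d = 0 → d = 0 := by
    intro d hd e
    have := (ZMod.intCast_zmod_eq_zero_iff_dvd d (2 ^ j)).mp e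
    exact Int.eq_zero_of_abs_lt_dvd this (hd.trans_le (by exact_mod_cast hq))
  obtain ⟨w, c, hw⟩ := bluestein q _ hφ (ZMod.val : ZMod q → ℕ) ZMod.val_lt
  set φ : ZMod q → ZMod (2 ^ j) := fun a => Int.castAddHom (ZMod (2 ^ j)) (a.val : ℕ) with hφd
  have hinj : Function.Injective φ := fun a b e =>
    ZMod.val_injective q (inj_of_short q _ hφ (ZMod.val_lt a) (ZMod.val_lt b) e)
  have s1 : Sh 3 w1 x (J φ * diagonal w) := by
    have := Sh.diag (h1.comp hinj) hx (fun a b e => hx1 b (φ a) e.symm) w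
    unfold Sh at this ⊢
    rwa [← Matrix.mul_assoc, J_mul_J]
  have s2 : Sh 3 y w2 (diagonal (fun a => s * w a) * (J φ)ᵀ) := by
    have := Sh.diag hy (h2.comp hinj) (fun a b => hy2 a (φ b)) fun a => s * w a
    unfold Sh at this ⊢
    rwa [← J_mul_J, transpose_mul, ← Matrix.mul_assoc, Matrix.mul_assoc (J y)] at this
  have s3 := s2.comm ((sh_circ j h2 h1 h12 c).comm s1 h1 h12 hx1 hx2) h2
    (fun a b e => hy2 b a e.symm) hx2 hxy
  have e : diagonal (fun a => s * w a) * (J φ)ᵀ * (Circ c * (J φ * diagonal w)) = s • F q := by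
    rw [← Matrix.mul_assoc (Circ c), mul_J, Matrix.mul_assoc, ← Matrix.mul_assoc (J φ)ᵀ, Jt_mul]
    ext a b
    rw [diagonal_mul, mul_diagonal, Matrix.smul_apply, F_val, hw]
    simp only [submatrix_apply, id, Circ, smul_eq_mul, hφd]
    ring
  rw [e] at s3
  exact Dep.le s3 (by omega)

lemma dep_pair {q j : ℕ} [NeZero q] (hq : 2 * q ≤ 2 ^ j) {x y : ZMod q → Z}
    (hxy : Function.Injective (Sum.elim x y)) (hZ : 2 * q + 2 * 2 ^ j ≤ Fintype.card Z) :
    Dep (90 + 48 * j) (on (Sum.elim x y) (fromBlocks (F q) 0 0 (F q))) := by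
  classical
  have hc : Fintype.card (ZMod (2 ^ j) ⊕ ZMod (2 ^ j)) ≤
      Fintype.card ((Set.range (Sum.elim x y))ᶜ : Set Z) := by
    rw [Fintype.card_compl_set, Set.card_range_of_injective hxy]
    simp only [Fintype.card_sum, ZMod.card]; omega
  obtain ⟨ρ⟩ := Function.Embedding.nonempty_of_card_le hc
  have hx : Function.Injective x := hxy.comp Sum.inl_injective
  have hy : Function.Injective y := hxy.comp Sum.inr_injective
  have hne : ∀ a b, x a ≠ y b := fun a b e => by
    simpa using hxy (a₁ := .inl a) (a₂ := .inr b) e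
  have h1 : Function.Injective fun a => (ρ (.inl a)).1 :=
    Subtype.val_injective.comp (ρ.injective.comp Sum.inl_injective)
  have h2 : Function.Injective fun a => (ρ (.inr a)).1 :=
    Subtype.val_injective.comp (ρ.injective.comp Sum.inr_injective)
  have h12 : ∀ a b, (ρ (.inl a)).1 ≠ (ρ (.inr b)).1 := fun a b e => by
    simpa using ρ.injective (Subtype.ext e)
  have hxρ : ∀ a t, x a ≠ (ρ t).1 := fun a t e => (ρ t).2 ⟨.inl a, e⟩
  have hyρ : ∀ a t, y a ≠ (ρ t).1 := fun a t e => (ρ t).2 ⟨.inr a, e⟩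
  have up := sh_F hq hx hy h2 h1 (fun a b e => hne b a e.symm) h12 (fun _ _ => hyρ _ _)
    (fun _ _ => hyρ _ _) (fun _ _ => hxρ _ _) 1
  have low := sh_F hq hy hx h2 h1 hne h12 (fun _ _ => hxρ _ _)
    (fun _ _ => hxρ _ _) (fun _ _ => hyρ _ _) (-(Fintype.card (ZMod q) : ℂ)⁻¹)
  have hneg : J (Neg.neg : ZMod q → ZMod q) * J Neg.neg = 1 := by
    rw [J_mul_J]; ext a b; simp [J, one_apply]
  have hm : Mono (J (Neg.neg : ZMod q → ZMod q)) :=
    ⟨Neg.neg, fun a b h => if_neg fun e => h (by simp [e])⟩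
  have low2 := low.conj_right hx hne (Dep.base hm) hneg
  unfold Sh at up low2
  rw [one_smul, ← on_up] at up
  rw [← on_low, mul_J] at low2
  have last : Dep 0 (fromBlocks 0 (-(F q * F q)) 1 0 : Matrix (ZMod q ⊕ ZMod q) _ ℂ) := by
    have hsq : Mono (-(F q * F q)) := by
      obtain ⟨p, hp⟩ := (bichar_F q).sq
      exact ⟨p, fun a b h => by simp [hp a b h]⟩
    have := (Dep.base (hsq.sum (Mono.one (ι := ZMod q)))).reindex2 (Equiv.refl _)
      (Equiv.sumComm _ _)
    convert this using 1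
    ext (a | a) (b | b) <;> simp
  have := ((up.mul low2).mul up).mul (last.on hxy)
  rw [← on_mul hxy, ← on_mul hxy, ← on_mul hxy] at this
  have hi := (bichar_F q).inv
  have hi' := mul_eq_one_comm.mp hi
  set A := F q
  have e0 : (-(Fintype.card (ZMod q) : ℂ)⁻¹ • A).submatrix id Neg.neg =
      -((Fintype.card (ZMod q) : ℂ)⁻¹ • A.submatrix id Neg.neg) := by
    ext; simp
  rw [e0] at this
  set A' := (Fintype.card (ZMod q) : ℂ)⁻¹ • A.submatrix id Neg.neg
  have e : fromBlocks 1 A 0 1 * fromBlocks 1 0 (-A') 1 * fromBlocks 1 A 0 1 *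
      fromBlocks 0 (-(A * A)) 1 0 = fromBlocks A 0 0 A := by
    simp [fromBlocks_multiply, hi, hi', ← Matrix.mul_assoc]
  rw [e] at this
  exact this.le (by omega)

end small

theorem dep_sixteen {q j : ℕ} [NeZero q] (hq : 2 * q ≤ 2 ^ j) (hq' : 2 ^ j ≤ 4 * q) :
    Dep (8 * (90 + 48 * j)) (blockDiagonal fun _ : Fin 8 × Bool => F q) := by
  have key : ∀ S : Finset (Fin 8), Dep (S.card * (90 + 48 * j))
      (blockDiagonal fun k : Fin 8 × Bool => if k.1 ∈ S then F q else 1) := by
    intro S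
    induction S using Finset.induction_on with
    | empty => simpa using Dep.base (Mono.blockDiag fun _ : Fin 8 × Bool => Mono.one)
    | insert a S ha ih =>
      have hinj : Function.Injective (Sum.elim (fun u : ZMod q => (u, (a, false)))
          (fun u : ZMod q => (u, (a, true)))) := by
        rintro (u | u) (v | v) <;> simp
      have h1 := dep_pair hq hinj (by simp; omega)
      have e1 : on (Sum.elim (fun u : ZMod q => (u, (a, false)))
          (fun u : ZMod q => (u, (a, true)))) (fromBlocks (F q) 0 0 (F q)) =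
          blockDiagonal fun k : Fin 8 × Bool => if k.1 = a then F q else 1 := by
        ext ⟨u, k, b⟩ ⟨v, k', b'⟩
        simp only [on, Matrix.add_apply, blockDiagonal_apply]
        by_cases hk : k = a
        · by_cases hk' : k' = a
          · subst hk hk'
            have t := JTJ_apply hinj hinj (fromBlocks (F q) 0 0 (F q) - 1)
            cases b <;> cases b'
            · have := t (.inl u) (.inl v); simp_all [one_apply]
            · have := t (.inl u) (.inr v); simp_all [one_apply]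
            · have := t (.inr u) (.inl v); simp_all [one_apply]
            · have := t (.inr u) (.inr v); simp_all [one_apply]
          · rw [JTJ_right]
            · simp [one_apply, hk, Ne.symm hk']
            · rintro ⟨w | w, h⟩ <;> simp_all
        · rw [JTJ_left]
          · simp [one_apply, hk, ite_and]
            split_ifs <;> simp_all
          · rintro ⟨w | w, h⟩ <;> simp_all
      rw [e1] at h1
      have := h1.mul ih
      rw [← blockDiagonal_mul] at this
      rw [card_insert_of_notMem ha, add_mul, one_mul, add_comm (S.card * _)]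
      have e2 : (fun k : Fin 8 × Bool => if k.1 ∈ insert a S then F q else 1) = fun k =>
          (if k.1 = a then F q else 1) * if k.1 ∈ S then F q else 1 := by
        funext k
        by_cases hk : k.1 = a
        · simp [hk, ha]
        · simp [hk]
      rw [e2]; exact this
  simpa using key univ

end Vale.Agent.P344
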