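import Vale.Agent.P344.Rank

/-!
One invocation of the low-rank shear network, in the forward and in the backward direction.
-/

namespace Vale.Agent.P344

open Finset

section
variable {V : Type} [AddCommGroup V] [Module ℂ V]

/-- `l` layers of normalized cost `τ` and `g` entrywise gates on arrays of size `N` -/
def RL (τ : ℝ) (N : ℕ) (S : Set V) (l g : ℕ) (T : Set V) : Prop := RR S ((l * τ + g) * N) T

variable {τ : ℝ} {N : ℕ}

lemma RL.done {S T : Set V} (h : T ⊆ S) : RL τ N S 0 0 T := by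
  unfold RL; simpa using RR.done h

lemma RL.mono (hτ : 0 ≤ τ) {S T : Set V} {l g l' g' : ℕ} (h : RL τ N S l g T) (hl : l ≤ l')
    (hg : g ≤ g') : RL τ N S l' g' T := by
  refine RR.mono h (mul_le_mul_of_nonneg_right ?_ (Nat.cast_nonneg _))
  have h1 : (l : ℝ) ≤ l' := by exact_mod_cast hl
  have h2 : (g : ℝ) ≤ g' := by exact_mod_cast hg
  nlinarith

lemma RL.bind {S T U : Set V} {l g l' g' : ℕ} (h : RL τ N S l g T)
    (h' : ∀ S', S ⊆ S' → T ⊆ S' → RL τ N S' l' g' U) : RL τ N S (l + l') (g + g') U := by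
  refine (RR.bind h h').mono (le_of_eq ?_)
  push_cast; ring

lemma RL.fam {ρ : Type} {S : Set V} (s : Finset ρ) {l g : ℕ} (T : ρ → Set V)
    (h : ∀ i ∈ s, RL τ N S l g (T i)) : RL τ N S (s.card * l) (s.card * g) (⋃ i ∈ s, T i) := by
  refine (RR.fam s _ T h).mono (le_of_eq ?_)
  rw [sum_const, nsmul_eq_mul]
  push_cast; ring

lemma RL.bindFam {ρ : Type} {S U : Set V} (s : Finset ρ) {l g l' g' : ℕ} (T : ρ → Set V)
    (h : ∀ i ∈ s, RL τ N S l g (T i))
    (h' : ∀ S', S ⊆ S' → (∀ i ∈ s, T i ⊆ S') → RL τ N S' l' g' U) :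
    RL τ N S (s.card * l + l') (s.card * g + g') U :=
  (RL.fam s T h).bind fun S' h1 h2 => h' S' h1 fun _ hi =>
    (Set.subset_biUnion_of_mem (u := T) (s := (s : Set ρ)) hi).trans h2

end

section
variable {μ : Type} [Fintype μ] [DecidableEq μ] {β : Type} [Fintype β] [DecidableEq β]
variable {V : Type} [AddCommGroup V] [Module ℂ V] {τ : ℝ}

lemma RL.move (hτ : 0 ≤ τ) (hC : Cost (Cpow β) (τ * 2 ^ Fintype.card β))
    {M M' : Matrix μ μ (ZMod 2)} {d : ℕ} (h : Rk (M + M') d) {z : (β × μ → ZMod 2) → V}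
    {S : Set V} (hS : Av β M z ⊆ S) :
    RL τ (Fintype.card (β × μ → ZMod 2)) S d 0 (Av β M' z) := by
  have := (move_aux hτ hC h M z).left hS
  rw [add_right_comm, mat_add_self, zero_add] at this
  unfold RL
  simpa using this

lemma RL.add {M : Matrix μ μ (ZMod 2)} {z z' : (β × μ → ZMod 2) → V} {S : Set V} {g g' : ℕ}
    (h : RL τ (Fintype.card (β × μ → ZMod 2)) S 0 g (Av β M z))
    (h' : RL τ (Fintype.card (β × μ → ZMod 2)) S 0 g' (Av β M z')) :
    RL τ (Fintype.card (β × μ → ZMod 2)) S 0 (g + g' + 1) (Av β M (z + z')) := by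
  have := (RR.union h h').bind (U := Av β M (z + z')) fun S' _ h2 =>
    RR.range (S := S') (x := 1) (app (Phi β M) (z + z')) fun r => RR.gate (Or.inl
      ⟨app (Phi β M) z r, app (Phi β M) z' r, Or.inl (h2 (Or.inl ⟨r, rfl⟩)),
        Or.inl (h2 (Or.inr ⟨r, rfl⟩)), Or.inl (by rw [app_add]; rfl)⟩)
  refine this.mono (le_of_eq ?_)
  push_cast; ring

lemma RL.sub {M : Matrix μ μ (ZMod 2)} {z z' : (β × μ → ZMod 2) → V} {S : Set V} {g g' : ℕ}
    (h : RL τ (Fintype.card (β × μ → ZMod 2)) S 0 g (Av β M z))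
    (h' : RL τ (Fintype.card (β × μ → ZMod 2)) S 0 g' (Av β M z')) :
    RL τ (Fintype.card (β × μ → ZMod 2)) S 0 (g + g' + 1) (Av β M (z - z')) := by
  have := (RR.union h h').bind (U := Av β M (z - z')) fun S' _ h2 =>
    RR.range (S := S') (x := 1) (app (Phi β M) (z - z')) fun r => RR.gate (Or.inl
      ⟨app (Phi β M) z r, app (Phi β M) z' r, Or.inl (h2 (Or.inl ⟨r, rfl⟩)),
        Or.inl (h2 (Or.inr ⟨r, rfl⟩)), Or.inr (by rw [app_sub]; rfl)⟩)
  refine this.mono (le_of_eq ?_)
  push_cast; ring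

lemma RL.lin {ρ : Type} [Fintype ρ] {M : Matrix μ μ (ZMod 2)} {S : Set V} (s : Finset ρ)
    (c : ρ → ℂ) (z : ρ → (β × μ → ZMod 2) → V) (h : ∀ i ∈ s, Av β M (z i) ⊆ S) :
    RL τ (Fintype.card (β × μ → ZMod 2)) S 0 (2 * Fintype.card ρ) (Av β M (∑ i ∈ s, c i • z i)) := by
  have := RR.range (S := S) (x := 2 * s.card) (app (Phi β M) (∑ i ∈ s, c i • z i)) fun r => by
    rw [app_sum]
    exact RR.lincomb s c _ fun i hi => h i hi ⟨r, rfl⟩
  refine this.mono ?_
  have h1 : (s.card : ℝ) ≤ Fintype.card ρ := by exact_mod_cast card_le_univ s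
  have h2 : (0 : ℝ) ≤ Fintype.card (β × μ → ZMod 2) := Nat.cast_nonneg _
  push_cast
  nlinarith

end

def memo (j : Option (Fin 13)) (T : Tr) : Prop := ∀ i ∈ j, i ∈ T.1

instance (j : Option (Fin 13)) (T : Tr) : Decidable (memo j T) := by unfold memo; infer_instance

noncomputable def cen {A : Type} [AddCommGroup A] [Module ℂ A] (x : Tr → A) (j : Option (Fin 13)) : A :=
  ∑ T ∈ univ.filter (memo j), (1 : ℂ) • x T

noncomputable def rc (S : Tr) (j : Option (Fin 13)) : ℂ :=
  j.elim (-1 / 2) fun i => if i ∈ S.1 then 1 / 2 else 0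

noncomputable def mm (S T : Tr) : ℂ := (((S.1 ∩ T.1).card : ℂ) - 1) / 2

lemma central {A : Type} [AddCommGroup A] [Module ℂ A] (x : Tr → A) (S : Tr) :
    ∑ j, rc S j • cen x j = x S + ∑ T ∈ univ.filter (ev S), mm S T • x T := by
  have h1 : ∑ j, rc S j • cen x j = ∑ T, mm S T • x T := by
    simp only [cen, smul_sum, sum_filter, one_smul, smul_ite, smul_zero]
    rw [sum_comm]
    refine sum_congr rfl fun T _ => ?_
    have : ∀ j, (if memo j T then rc S j • x T else 0) = (if memo j T then rc S j else 0) • x T := by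
      intro j; split_ifs <;> simp
    simp only [this, ← sum_smul]
    congr 1
    rw [Fintype.sum_option]
    have e : ∀ i : Fin 13, (if memo (some i) T then rc S (some i) else 0) =
        if i ∈ S.1 ∩ T.1 then (1 / 2 : ℂ) else 0 := by
      intro i
      by_cases a : i ∈ S.1 <;> by_cases b : i ∈ T.1 <;> simp [memo, rc, a, b]
    simp only [e]
    rw [sum_ite_mem, univ_inter, sum_const, nsmul_eq_mul]
    simp [memo, rc, mm]
    ring
  rw [h1, ← add_sum_erase _ _ (mem_univ S)]
  have h2 : mm S S = 1 := by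
    simp only [mm, inter_self, S.2]; norm_num
  rw [h2, one_smul]
  congr 1
  symm
  apply sum_subset
  · intro T hT
    rw [mem_filter] at hT
    refine mem_erase.mpr ⟨?_, mem_univ _⟩
    rintro rfl
    have := hT.2
    simp only [ev, inter_self, T.2] at this
    omega
  · intro T hT hT'
    have a1 : ¬ ev S T := by simpa using hT'
    have a2 : T ≠ S := (mem_erase.mp hT).1
    have a3 : (S.1 ∩ T.1).card ≤ 3 := (card_le_card inter_subset_left).trans S.2.le
    have a4 : (S.1 ∩ T.1).card ≠ 3 := by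
      intro h
      apply a2
      have b1 : S.1 ∩ T.1 = S.1 := eq_of_subset_of_card_le inter_subset_left (by rw [h, S.2])
      have b2 : S.1 ∩ T.1 = T.1 := eq_of_subset_of_card_le inter_subset_right (by rw [h, T.2])
      exact Subtype.ext (b2.symm.trans b1)
    have a5 : (S.1 ∩ T.1).card = 1 := by unfold ev at a1; omega
    simp [mm, a5]

noncomputable def Prs : Finset (Tr × Tr) := univ.filter fun π => ev π.1 π.2

lemma mem_Prs {S T : Tr} : (S, T) ∈ Prs ↔ ev S T := by simp [Prs]

noncomputable def pp : ℕ := Prs.card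

noncomputable def gInv : ℕ := 1000000 + 3 * pp

section
variable {μ : Type} [Fintype μ] [DecidableEq μ] {β : Type} [Fintype β] [DecidableEq β]
variable {V : Type} [AddCommGroup V] [Module ℂ V] {τ : ℝ}

lemma mv (hτ : 0 ≤ τ) (hC : Cost (Cpow β) (τ * 2 ^ Fintype.card β))
    {B : Matrix μ μ (ZMod 2)} {e : Matrix (Fin 13) (Fin 13) (ZMod 2) → Matrix μ μ (ZMod 2)}
    (he : ∀ M M', e (M + M') = e M + e M') (hr : ∀ M d, Rk M d → Rk (e M) d)
    {A A' : Matrix (Fin 13) (Fin 13) (ZMod 2)} {d : ℕ} (h : Rk (A + A') d)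
    {z : (β × μ → ZMod 2) → V} {S : Set V} (hS : Av β (B + e A) z ⊆ S) :
    RL τ (Fintype.card (β × μ → ZMod 2)) S d 0 (Av β (B + e A') z) := by
  refine RL.move hτ hC ?_ hS
  rw [add_add_add_comm, mat_add_self, zero_add, ← he]
  exact hr _ _ h

lemma rk_a (T : Tr) : Rk (0 + PT T) 1 := by simpa using rk_PT T
lemma rk_b (T : Tr) : Rk (PT T + 1) 12 := by rw [add_comm]; exact rk_Q T
lemma rk_c : Rk (0 + 1 : Matrix (Fin 13) (Fin 13) (ZMod 2)) 13 := by simpa using Rk.one (μ := Fin 13)
lemma rk_c' : Rk (1 + 0 : Matrix (Fin 13) (Fin 13) (ZMod 2)) 13 := by simpa using Rk.one (μ := Fin 13)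
lemma rk_d (T : Tr) : Rk (0 + (1 + PT T)) 12 := by simpa using rk_Q T
lemma rk_e {S T : Tr} (h : ev S T) : Rk (PT S + (1 + PT T)) 11 := by
  rw [← add_assoc, add_comm (PT S)]; exact rk_two h
lemma rk_f (T : Tr) : Rk (1 + PT T + 1) 1 := by
  rw [add_right_comm, mat_add_self, zero_add]; exact rk_PT T

lemma fwd (hτ : 0 ≤ τ) (hC : Cost (Cpow β) (τ * 2 ^ Fintype.card β))
    (B : Matrix μ μ (ZMod 2)) (e : Matrix (Fin 13) (Fin 13) (ZMod 2) → Matrix μ μ (ZMod 2))
    (he : ∀ M M', e (M + M') = e M + e M') (hr : ∀ M d, Rk M d → Rk (e M) d)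
    (x y : Tr → (β × μ → ZMod 2) → V) (z : Tr × Tr → (β × μ → ZMod 2) → V) (S : Set V)
    (hx : ∀ T, Av β (B + e 0) (x T) ⊆ S) (hy : ∀ T, Av β (B + e (PT T)) (y T) ⊆ S)
    (hz : ∀ π ∈ Prs, Av β (B + e 0) (z π) ⊆ S) :
    RL τ (Fintype.card (β × μ → ZMod 2)) S (13 * pp + 24 * 286 + 182) gInv
      ((⋃ T, Av β (B + e (1 + PT T)) (x T)) ∪ (⋃ T, Av β (B + e 1) (y T + x T)) ∪
        ⋃ π ∈ Prs, Av β (B + e 1) (z π)) := by
  apply RL.mono hτ
  case h =>
    apply RL.bindFam Prs (fun π => Av β (B + e 0) (z π + x π.2))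
      (fun π hπ => (RL.done (hz π hπ)).add (RL.done (hx π.2)))
    intro S1 i1 s1
    apply RL.bindFam univ (fun j => Av β (B + e 0) (cen x j))
      (fun j _ => RL.lin _ _ _ fun T _ => (hx T).trans i1)
    intro S2 i2 s2
    apply RL.bindFam Prs (fun π => Av β (B + e (PT π.1)) (z π + x π.2))
      (fun π hπ => mv hτ hC he hr (rk_a _) ((s1 π hπ).trans i2))
    intro S3 i3 s3
    apply RL.bindFam univ (fun T => Av β (B + e (PT T))
        (y T - ∑ T' ∈ univ.filter (ev T), mm T T' • (z (T, T') + x T')))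
      (fun T _ => (RL.done (((hy T).trans i1).trans (i2.trans i3))).sub
        (RL.lin _ _ _ fun T' hT' => s3 (T, T') (mem_Prs.mpr (mem_filter.mp hT').2)))
    intro S4 i4 s4
    apply RL.bindFam univ (fun T => Av β (B + e 1)
        (y T - ∑ T' ∈ univ.filter (ev T), mm T T' • (z (T, T') + x T')))
      (fun T hT => mv hτ hC he hr (rk_b _) (s4 T hT))
    intro S5 i5 s5
    apply RL.bindFam univ (fun j => Av β (B + e 1) (cen x j))
      (fun j hj => mv hτ hC he hr rk_c ((s2 j hj).trans (i3.trans (i4.trans i5))))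
    intro S6 i6 s6
    apply RL.bindFam univ (fun T => Av β (B + e (1 + PT T)) (x T))
      (fun T _ => mv hτ hC he hr (rk_d _)
        ((hx T).trans (i1.trans (i2.trans (i3.trans (i4.trans (i5.trans i6)))))))
    intro S7 i7 s7
    apply RL.bindFam Prs (fun π => Av β (B + e (1 + PT π.2)) (z π + x π.2))
      (fun π hπ => mv hτ hC he hr (rk_e (mem_Prs.mp hπ))
        ((s3 π hπ).trans (i4.trans (i5.trans (i6.trans i7)))))
    intro S8 i8 s8
    apply RL.bindFam Prs (fun π => Av β (B + e (1 + PT π.2)) (z π + x π.2 - x π.2))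
      (fun π hπ => (RL.done (s8 π hπ)).sub (RL.done ((s7 π.2 (mem_univ _)).trans i8)))
    intro S9 i9 s9
    simp only [add_sub_cancel_right] at s9
    apply RL.bindFam Prs (fun π => Av β (B + e 1) (z π))
      (fun π hπ => mv hτ hC he hr (rk_f _) (s9 π hπ))
    intro S10 i10 s10
    apply RL.bindFam univ (fun T => Av β (B + e 1)
        (y T - ∑ T' ∈ univ.filter (ev T), mm T T' • (z (T, T') + x T') + ∑ j, rc T j • cen x j +
          ∑ T' ∈ univ.filter (ev T), mm T T' • z (T, T')))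
      (fun T hT => ((RL.done ((s5 T hT).trans
          (i6.trans (i7.trans (i8.trans (i9.trans i10)))))).add
        (RL.lin _ _ _ fun j hj => (s6 j hj).trans (i7.trans (i8.trans (i9.trans i10))))).add
        (RL.lin _ _ _ fun T' hT' => s10 (T, T') (mem_Prs.mpr (mem_filter.mp hT').2)))
    intro S11 i11 s11
    apply RL.done
    refine (Set.union_subset (Set.union_subset ?_ ?_) ?_)
    · exact Set.iUnion_subset fun T => (s7 T (mem_univ _)).trans
        (i8.trans (i9.trans (i10.trans i11)))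
    · refine Set.iUnion_subset fun T => ?_
      have := s11 T (mem_univ _)
      rw [central] at this
      simp only [smul_add, sum_add_distrib] at this
      convert this using 2
      abel
    · exact Set.iUnion₂_subset fun π hπ => (s10 π hπ).trans i11
  case hl =>
    simp only [card_univ, card_Tr, Fintype.card_option, Fintype.card_fin, pp]
    omega
  case hg =>
    simp only [card_univ, card_Tr, Fintype.card_option, Fintype.card_fin, gInv, pp]
    linarith

lemma bwd (hτ : 0 ≤ τ) (hC : Cost (Cpow β) (τ * 2 ^ Fintype.card β))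
    (B : Matrix μ μ (ZMod 2)) (e : Matrix (Fin 13) (Fin 13) (ZMod 2) → Matrix μ μ (ZMod 2))
    (he : ∀ M M', e (M + M') = e M + e M') (hr : ∀ M d, Rk M d → Rk (e M) d)
    (x y : Tr → (β × μ → ZMod 2) → V) (z : Tr × Tr → (β × μ → ZMod 2) → V) (S : Set V)
    (hx : ∀ T, Av β (B + e 0) (x T) ⊆ S) (hy : ∀ T, Av β (B + e (PT T)) (y T) ⊆ S)
    (hz : ∀ π ∈ Prs, Av β (B + e 0) (z π) ⊆ S) :
    RL τ (Fintype.card (β × μ → ZMod 2)) S (13 * pp + 24 * 286 + 182) gInv
      ((⋃ T, Av β (B + e (1 + PT T)) (x T - y T)) ∪ (⋃ T, Av β (B + e 1) (y T)) ∪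
        ⋃ π ∈ Prs, Av β (B + e 1) (z π)) := by
  apply RL.mono hτ
  case h =>
    apply RL.bindFam Prs (fun π => Av β (B + e (PT π.2)) (z π))
      (fun π hπ => mv hτ hC he hr (rk_a _) (hz π hπ))
    intro S1 i1 s1
    apply RL.bindFam Prs (fun π => Av β (B + e (PT π.2)) (z π + y π.2))
      (fun π hπ => (RL.done (s1 π hπ)).add (RL.done ((hy π.2).trans i1)))
    intro S2 i2 s2
    apply RL.bindFam univ (fun T => Av β (B + e 1) (y T))
      (fun T _ => mv hτ hC he hr (rk_b _) ((hy T).trans (i1.trans i2)))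
    intro S3 i3 s3
    apply RL.bindFam univ (fun j => Av β (B + e 1) (cen y j))
      (fun j _ => RL.lin _ _ _ fun T _ => s3 T (mem_univ _))
    intro S4 i4 s4
    apply RL.bindFam univ (fun j => Av β (B + e 0) (cen y j))
      (fun j hj => mv hτ hC he hr rk_c' (s4 j hj))
    intro S5 i5 s5
    apply RL.bindFam univ (fun T => Av β (B + e 0)
        (x T - ∑ j, rc T j • cen y j - ∑ T' ∈ univ.filter (ev T), mm T T' • z (T, T')))
      (fun T _ => ((RL.done ((hx T).trans
          (i1.trans (i2.trans (i3.trans (i4.trans i5)))))).sub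
        (RL.lin _ _ _ fun j hj => s5 j hj)).sub
        (RL.lin _ _ _ fun T' hT' => (hz (T, T') (mem_Prs.mpr (mem_filter.mp hT').2)).trans
          (i1.trans (i2.trans (i3.trans (i4.trans i5))))))
    intro S6 i6 s6
    apply RL.bindFam univ (fun T => Av β (B + e (1 + PT T))
        (x T - ∑ j, rc T j • cen y j - ∑ T' ∈ univ.filter (ev T), mm T T' • z (T, T')))
      (fun T hT => mv hτ hC he hr (rk_d _) (s6 T hT))
    intro S7 i7 s7
    apply RL.bindFam Prs (fun π => Av β (B + e (1 + PT π.1)) (z π + y π.2))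
      (fun π hπ => mv hτ hC he hr (rk_e (ev_symm (mem_Prs.mp hπ)))
        ((s2 π hπ).trans (i3.trans (i4.trans (i5.trans (i6.trans i7))))))
    intro S8 i8 s8
    apply RL.bindFam univ (fun T => Av β (B + e (1 + PT T))
        (x T - ∑ j, rc T j • cen y j - ∑ T' ∈ univ.filter (ev T), mm T T' • z (T, T') +
          ∑ T' ∈ univ.filter (ev T), mm T T' • (z (T, T') + y T')))
      (fun T hT => (RL.done ((s7 T hT).trans i8)).add
        (RL.lin _ _ _ fun T' hT' => s8 (T, T') (mem_Prs.mpr (mem_filter.mp hT').2)))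
    intro S9 i9 s9
    apply RL.bindFam Prs (fun π => Av β (B + e 1) (z π + y π.2))
      (fun π hπ => mv hτ hC he hr (rk_f _) ((s8 π hπ).trans i9))
    intro S10 i10 s10
    apply RL.bindFam Prs (fun π => Av β (B + e 1) (z π + y π.2 - y π.2))
      (fun π hπ => (RL.done (s10 π hπ)).sub (RL.done ((s3 π.2 (mem_univ _)).trans
        (i4.trans (i5.trans (i6.trans (i7.trans (i8.trans (i9.trans i10)))))))))
    intro S11 i11 s11
    simp only [add_sub_cancel_right] at s11
    apply RL.done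
    refine (Set.union_subset (Set.union_subset ?_ ?_) ?_)
    · refine Set.iUnion_subset fun T => ?_
      have := (s9 T (mem_univ _)).trans (i10.trans i11)
      rw [central] at this
      simp only [smul_add, sum_add_distrib] at this
      refine (le_of_eq ?_).trans this
      congr 1
      abel
    · exact Set.iUnion_subset fun T => (s3 T (mem_univ _)).trans
        (i4.trans (i5.trans (i6.trans (i7.trans (i8.trans (i9.trans (i10.trans i11)))))))
    · exact Set.iUnion₂_subset fun π hπ => s11 π hπ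
  case hl =>
    simp only [card_univ, card_Tr, Fintype.card_option, Fintype.card_fin, pp]
    omega
  case hg =>
    simp only [card_univ, card_Tr, Fintype.card_option, Fintype.card_fin, gInv, pp]
    linarith

end

end Vale.Agent.P344
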