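import Vale.Agent.P344.Fourier

/-!
The cost of the Fourier matrix of arbitrary order.
-/

namespace Vale.Agent.P344

open Finset Matrix

lemma Cost.subcols {ι κ ι' κ' : Type} [Fintype ι] [Fintype ι'] {M : Matrix κ ι ℂ} {x : ℝ}
    (h : Cost M x) (f : κ' → κ) {φ : ι' → ι} (hφ : Function.Injective φ) :
    Cost (M.submatrix f φ) x := by
  classical
  intro V _ _ v
  refine ((h V (Function.extend φ v 0)).left' ?_).right ?_
  · rintro _ ⟨i, rfl⟩
    by_cases hi : ∃ a, φ a = i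
    · obtain ⟨a, rfl⟩ := hi
      rw [hφ.extend_apply]; exact Or.inl ⟨a, rfl⟩
    · rw [Function.extend_apply' _ _ _ hi]; exact Or.inr rfl
  · rintro _ ⟨r, rfl⟩
    refine ⟨f r, ?_⟩
    simp only [app, submatrix_apply]
    symm
    apply sum_of_injOn φ hφ.injOn (fun _ _ => mem_univ _)
    · intro i _ hi
      rw [Function.extend_apply' _ _ _ (by simpa using hi)]; simp
    · intro a _; rw [hφ.extend_apply]

lemma Cost.blockDiag {ι K : Type} [Fintype ι] [Fintype K] [DecidableEq K] {M : Matrix ι ι ℂ}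
    {x : ℝ} (h : Cost M x) : Cost (blockDiagonal fun _ : K => M) (Fintype.card K * x) := by
  intro V _ _ v
  have := RR.fam (S := Set.range v) univ (fun _ : K => x)
    (fun k => Set.range (app M fun i => v (i, k)))
    (fun k _ => (h V _).left (by rintro _ ⟨i, rfl⟩; exact ⟨_, rfl⟩))
  rw [sum_const, card_univ, nsmul_eq_mul] at this
  refine this.right ?_
  rintro _ ⟨⟨i, k⟩, rfl⟩
  simp only [Set.mem_iUnion]
  refine ⟨k, mem_univ _, i, ?_⟩
  simp [app, Fintype.sum_prod_type, blockDiagonal_apply, ite_smul]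

lemma cost_Fd_of {G : Type} [AddCommGroup G] [Fintype G] [DecidableEq G] {B : Matrix G G ℂ}
    (hB : Bichar B) {x : ℝ} (hx : Cost B x) (n : ℕ) (φ : ℤ →+ G)
    (hφ : ∀ d : ℤ, |d| < 2 * n → φ d = 0 → d = 0) :
    Cost (Fd n) (2 * x + Fintype.card G + 2 * n) := by
  obtain ⟨w, c, hw⟩ := bluestein n φ hφ (Fin.val : Fin n → ℕ) Fin.isLt
  obtain ⟨d, hd⟩ := hB.circ c
  have h1 : Cost (Circ c) (x + Fintype.card G + x) := by
    rw [hd]
    exact (hx.mul (Mono.diagonal d).cost).mul (hx.reindex id (Equiv.neg G))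
  have hinj : Function.Injective fun a : Fin n => φ (a : ℕ) := fun a b e =>
    Fin.ext (inj_of_short n φ hφ a.2 b.2 e)
  have h2 := ((Mono.diagonal w).cost.mul (h1.subcols (fun a : Fin n => φ (a : ℕ)) hinj)).mul
    (Mono.diagonal w).cost
  have e : diagonal w * (Circ c).submatrix (fun a : Fin n => φ (a : ℕ)) (fun a : Fin n => φ (a : ℕ)) *
      diagonal w = Fd n := by
    ext a b
    rw [mul_diagonal, diagonal_mul, Fd, hw]; rfl
  rw [e] at h2
  refine h2.mono (le_of_eq ?_)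
  simp; ring

lemma cost_big {r s : ℕ} (hs : 4 * r ≤ s) (q : Fin r → ℕ) [∀ i, NeZero (q i)] (jm : ℕ)
    (hq : ∀ i, q i ≤ 2 ^ jm) {τ : ℝ} (hτ : 0 ≤ τ) (hC : ∀ s ≤ r, PC s τ) :
    Cost (ι := ZMod (2 ^ s) × ∀ i, ZMod (q i)) (κ := ZMod (2 ^ s) × ∀ i, ZMod (q i))
      (fun p p' => F (2 ^ s) p.1 p'.1 * piKron (fun i => F (q i)) p.2 p'.2)
      ((2 + 5 * s + (8 * (90 + 48 * (jm + 2)) : ℕ) * (τ + 1)) * (2 ^ s * ∏ i, q i : ℕ)) := by
  have h1 := (Dep.blockDiag fun _ : (∀ i, ZMod (q i)) => dep_F_pow s).cost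
  have h2 : ∀ i, Dep (8 * (90 + 48 * (jm + 2))) (blockDiagonal fun _ : Fin 8 × Bool => F (q i)) := by
    intro i
    have a := Nat.pow_log_le_self 2 (NeZero.ne (q i))
    have b := Nat.lt_pow_succ_log_self (b := 2) (by norm_num) (q i)
    have c : Nat.log 2 (q i) ≤ jm := by
      have := Nat.log_mono_right (b := 2) (hq i)
      rwa [Nat.log_pow (by norm_num)] at this
    refine (dep_sixteen (j := Nat.log 2 (q i) + 2) ?_ ?_).le (by omega)
    · rw [pow_succ] at b; rw [pow_add]; omega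
    · rw [pow_add]; omega
  have h3 := (cost_piKron hτ (by simpa using hC) _ _ h2).blockDiag (K := Fin (2 ^ (s - 4 * r)))
  have hcard : Fintype.card (ZMod (2 ^ s)) =
      Fintype.card ((Fin r → Fin 8 × Bool) × Fin (2 ^ (s - 4 * r))) := by
    simp only [ZMod.card, Fintype.card_prod, Fintype.card_fun, Fintype.card_fin, Fintype.card_bool]
    rw [show 8 * 2 = 2 ^ 4 by norm_num, ← pow_mul, ← pow_add]; congr 1; omega
  let e0 := Fintype.equivOfCardEq hcard
  let e : (ZMod (2 ^ s) × ∀ i, ZMod (q i)) ≃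
      (∀ i, ZMod (q i) × (Fin 8 × Bool)) × Fin (2 ^ (s - 4 * r)) :=
    ⟨fun p => (fun i => (p.2 i, (e0 p.1).1 i), (e0 p.1).2),
      fun z => (e0.symm (fun i => (z.1 i).2, z.2), fun i => (z.1 i).1),
      fun p => by simp, fun z => by simp⟩
  have h4 := h1.mul (h3.reindex e e)
  have hN : Fintype.card (ZMod (2 ^ s) × ∀ i, ZMod (q i)) = 2 ^ s * ∏ i, q i := by simp
  have hN' : Fintype.card (Fin (2 ^ (s - 4 * r))) *
      Fintype.card (∀ i, ZMod (q i) × (Fin 8 × Bool)) = 2 ^ s * ∏ i, q i := by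
    rw [mul_comm, ← Fintype.card_prod, ← Fintype.card_congr e, hN]
  have e1 : (blockDiagonal fun _ : (∀ i, ZMod (q i)) => F (2 ^ s)) *
      (blockDiagonal fun _ : Fin (2 ^ (s - 4 * r)) =>
        piKron fun i => blockDiagonal fun _ : Fin 8 × Bool => F (q i)).submatrix e e =
      fun p p' => F (2 ^ s) p.1 p'.1 * piKron (fun i => F (q i)) p.2 p'.2 := by
    have key : ∀ a a' x x', (blockDiagonal fun _ : Fin (2 ^ (s - 4 * r)) =>
        piKron fun i => blockDiagonal fun _ : Fin 8 × Bool => F (q i)) (e (a, x)) (e (a', x')) =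
        if a = a' then piKron (fun i => F (q i)) x x' else 0 := by
      intro a a' x x'
      rw [blockDiagonal_apply]
      by_cases h : a = a'
      · subst h; simp [e, piKron, blockDiagonal_apply]
      · rw [if_neg h]
        split_ifs with h5
        · have : (e0 a).1 ≠ (e0 a').1 := fun h6 => h (e0.injective (Prod.ext h6 h5))
          obtain ⟨i, hi⟩ := Function.ne_iff.mp this
          exact prod_eq_zero (mem_univ i) (by simp [e, blockDiagonal_apply, hi])
        · rfl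
    ext ⟨a, x⟩ ⟨a', x'⟩
    rw [Matrix.mul_apply, sum_eq_single (a', x)]
    · rw [submatrix_apply, key]; simp [blockDiagonal_apply]
    · rintro ⟨b, y⟩ _ hne
      rw [submatrix_apply, key]
      by_cases h : x = y
      · rw [if_neg (fun h' => hne (by rw [h, h'])), mul_zero]
      · simp [blockDiagonal_apply, h]
    · simp
  rw [e1] at h4
  refine h4.mono (le_of_eq ?_)
  rw [hN, mul_left_comm, ← Nat.cast_mul, hN']
  ring

lemma select (n r : ℕ) (hr : 1 ≤ r) (h1 : 2 ^ (13 * r ^ 3) ≤ n) (h2 : n < 2 ^ (104 * r ^ 3)) :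
    ∃ (q : Fin r → ℕ) (s : ℕ), (∀ i, 0 < q i ∧ q i ≤ 2 ^ (105 * r ^ 2) ∧ Odd (q i)) ∧
      Pairwise (fun i j => Nat.Coprime (q i) (q j)) ∧ 4 * r ≤ s ∧ s ≤ 5 * r ∧
      2 * n ≤ 2 ^ s * ∏ i, q i ∧ 2 ^ s * ∏ i, q i ≤ 4 * n := by
  let qq : ℕ → Fin r → ℕ := fun t i => (i + 1) * ((r + 1).factorial * t) + 1
  have hf := Nat.factorial_pos (r + 1)
  have hpow : ∀ t, ((r + 1).factorial * t) ^ r ≤ ∏ i, qq t i := by
    intro t
    have := prod_le_prod' (s := (univ : Finset (Fin r))) (f := fun _ => (r + 1).factorial * t)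
      (g := qq t) fun i _ => by simp only [qq]; nlinarith [Nat.zero_le ((r + 1).factorial * t)]
    simpa using this
  have hex : ∃ t, 2 * n < 2 ^ (4 * r) * ∏ i, qq (t + 2) i := by
    refine ⟨2 * n, ?_⟩
    have a := hpow (2 * n + 2)
    have b : (r + 1).factorial * (2 * n + 2) ≤ ((r + 1).factorial * (2 * n + 2)) ^ r :=
      Nat.le_self_pow (by omega) _
    have c : 1 ≤ 2 ^ (4 * r) := Nat.one_le_two_pow
    have d := Nat.mul_le_mul_right (2 * n + 2) (Nat.succ_le_of_lt hf)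
    have e := Nat.mul_le_mul_right (∏ i, qq (2 * n + 2) i) c
    omega
  have hone : 2 ^ (4 * r) * ∏ i, qq 1 i ≤ 2 * n := by
    have a : ∀ i, qq 1 i ≤ 2 ^ ((r + 2) * (r + 2)) := by
      intro i
      have b : qq 1 i ≤ (r + 2).factorial := by
        rw [Nat.factorial_succ (r + 1)]
        simp only [qq]
        have := i.2
        nlinarith
      refine b.trans ((Nat.factorial_le_pow _).trans ?_)
      rw [pow_mul]
      exact Nat.pow_le_pow_left Nat.lt_two_pow_self.le _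
    have b := prod_le_prod' (s := (univ : Finset (Fin r))) fun i _ => a i
    rw [prod_const, card_univ, Fintype.card_fin, ← pow_mul] at b
    calc _ ≤ 2 ^ (4 * r) * 2 ^ ((r + 2) * (r + 2) * r) := Nat.mul_le_mul_left _ b
      _ ≤ 2 ^ (13 * r ^ 3) := by
        rw [← pow_add]
        apply Nat.pow_le_pow_right (by norm_num)
        nlinarith [Nat.mul_le_mul hr hr, Nat.mul_le_mul_right (r * r) hr,
          Nat.mul_le_mul_right r hr]
      _ ≤ 2 * n := by omega
  obtain ⟨t, ht1, ht2⟩ : ∃ t, 2 ^ (4 * r) * ∏ i, qq (t + 1) i ≤ 2 * n ∧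
      2 * n < 2 ^ (4 * r) * ∏ i, qq (t + 2) i := by
    refine ⟨Nat.find hex, ?_, Nat.find_spec hex⟩
    rcases h : Nat.find hex with _ | u
    · exact hone
    · have := Nat.find_min hex (m := u) (by omega)
      exact not_lt.mp this
  have hdbl : ∏ i, qq (t + 2) i ≤ 2 ^ r * ∏ i, qq (t + 1) i := by
    have := prod_le_prod' (s := (univ : Finset (Fin r))) (f := qq (t + 2))
      (g := fun i => 2 * qq (t + 1) i) fun i _ => by
        simp only [qq]; nlinarith [Nat.zero_le ((i + 1) * (r + 1).factorial * t)]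
    rwa [prod_mul_distrib, prod_const, card_univ, Fintype.card_fin] at this
  set Q := ∏ i, qq (t + 1) i with hQ
  have hr5 : 2 * n ≤ 2 ^ (4 * r + r) * Q := by
    rw [pow_add, mul_assoc]
    exact ht2.le.trans (Nat.mul_le_mul_left _ hdbl)
  have hex2 : ∃ u, 2 * n ≤ 2 ^ (4 * r + u) * Q := ⟨r, hr5⟩
  have hM : (r + 1).factorial * (t + 1) < 2 ^ (104 * r ^ 2) := by
    have a := hpow (t + 1)
    have b : 2 ≤ 2 ^ (4 * r) := Nat.le_self_pow (by omega) _
    have c : Q ≤ n := by nlinarith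
    apply lt_of_pow_lt_pow_left₀ r (Nat.zero_le _)
    rw [← pow_mul, show 104 * r ^ 2 * r = 104 * r ^ 3 by ring]
    omega
  refine ⟨qq (t + 1), 4 * r + Nat.find hex2, fun i => ⟨by simp [qq], ?_, ?_⟩, ?_, by omega, ?_,
    Nat.find_spec hex2, ?_⟩
  · have a := i.2
    have b : r ≤ 2 ^ (r ^ 2) := Nat.lt_two_pow_self.le.trans
      (Nat.pow_le_pow_right (by norm_num) (by nlinarith))
    rw [show 105 * r ^ 2 = r ^ 2 + 104 * r ^ 2 by ring, pow_add]
    calc qq (t + 1) i ≤ r * ((r + 1).factorial * (t + 1) + 1) := by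
          have := Nat.mul_le_mul_right ((r + 1).factorial * (t + 1)) (Nat.succ_le_of_lt a)
          simp only [qq]; rw [mul_add r]; simp only [Nat.succ_eq_add_one] at this; omega
      _ ≤ _ := Nat.mul_le_mul b hM
  · have : 2 ∣ (r + 1).factorial := Nat.dvd_factorial (by norm_num) (by omega)
    exact Even.add_one (even_iff_two_dvd.mpr ((this.mul_right _).mul_left _))
  · have key : ∀ i j : Fin r, Nat.Coprime (qq (t + 1) i) (qq (t + 1) j) ∨ j ≤ i := by
      intro i j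
      by_cases h : j ≤ i
      · exact Or.inr h
      · left
        apply Nat.coprime_mul_succ
        apply Dvd.dvd.mul_right
        have := j.2
        rw [Fin.le_def] at h
        exact Nat.dvd_factorial (by omega) (by omega)
    intro i j hij
    rcases key i j with h | h
    · exact h
    · rcases key j i with h' | h'
      · exact h'.symm
      · exact absurd (le_antisymm h' h) hij
  · have := Nat.find_min' hex2 hr5
    omega
  · rw [← hQ]
    rcases h : Nat.find hex2 with _ | u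
    · simp only [add_zero]; omega
    · have := Nat.find_min hex2 (m := u) (by omega)
      rw [← add_assoc, pow_succ]
      nlinarith

theorem cost_Fd : ∃ δ : ℝ, 0 < δ ∧ δ < 1 ∧ ∃ C : ℝ, 0 < C ∧ ∀ n : ℕ, 2 ≤ n →
    Cost (Fd n) (C * n * Real.logb 2 n ^ (1 - δ)) := by
  obtain ⟨α, A, h0, h1, hA, hP⟩ := power_saving
  obtain ⟨K, hK⟩ : ∃ K : ℝ, K = 8 * (27 + 41808 * (2 * A + 1)) + 6 := ⟨_, rfl⟩
  have hK0 : 0 < K := by rw [hK]; positivity
  refine ⟨(1 - α) / 3, by linarith, by linarith, K + 16384, by positivity, fun n hn => ?_⟩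
  have hn0 : (2 : ℝ) ≤ n := by exact_mod_cast hn
  have hl : 1 ≤ Real.logb 2 n := by
    rw [Real.le_logb_iff_rpow_le (by norm_num) (by linarith)]; simpa using hn0
  have hl1 : 1 ≤ Real.logb 2 n ^ (1 - (1 - α) / 3) := Real.one_le_rpow hl (by linarith)
  by_cases hsmall : n < 2 ^ 13
  · refine (Cost.dense (Fd n)).mono ?_
    have : (n : ℝ) ≤ 8192 := by exact_mod_cast hsmall.le
    simp only [Fintype.card_fin]
    calc (n : ℝ) * (2 * n) ≤ (K + 16384) * n * 1 := by nlinarith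
      _ ≤ _ := by gcongr
  have hex : ∃ r, n < 2 ^ (13 * (r + 1) ^ 3) :=
    ⟨n, Nat.lt_two_pow_self.trans_le (Nat.pow_le_pow_right (by norm_num)
      (by nlinarith [Nat.le_self_pow (n := 3) (by norm_num) (n + 1)]))⟩
  obtain ⟨r, hr, hr1, hr2⟩ : ∃ r, 1 ≤ r ∧ 2 ^ (13 * r ^ 3) ≤ n ∧ n < 2 ^ (104 * r ^ 3) := by
    have a := Nat.find_spec hex
    rcases h : Nat.find hex with _ | u
    · rw [h] at a; exact absurd (by simpa using a) hsmall
    · rw [h] at a
      refine ⟨u + 1, by omega, not_lt.mp (Nat.find_min hex (m := u) (by omega)),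
        a.trans_le (Nat.pow_le_pow_right (by norm_num) ?_)⟩
      have : (u + 1 + 1) ^ 3 ≤ (2 * (u + 1)) ^ 3 := Nat.pow_le_pow_left (by omega) _
      rw [mul_pow] at this
      linarith
  obtain ⟨q, s, hq, hco, hs1, hs2, hN1, hN2⟩ := select n r hr hr1 hr2
  have : ∀ i, NeZero (q i) := fun i => ⟨(hq i).1.ne'⟩
  have hτ : 0 ≤ A * (r + 1 : ℝ) ^ α := by positivity
  have hb := cost_big hs1 q _ (fun i => (hq i).2.1) hτ fun s' hs' =>
    (hP s').mono (by
      have : (s' : ℝ) ≤ r := by exact_mod_cast hs'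
      gcongr)
  have hc := cost_Fd_of ((bichar_F (2 ^ s)).prod (Bichar.pi fun i => bichar_F (q i))) hb n
    (Int.castAddHom _) (by
      intro d hd e
      have e1 : ((2 ^ s : ℕ) : ℤ) ∣ d := (ZMod.intCast_zmod_eq_zero_iff_dvd d _).mp
        (congrArg Prod.fst e)
      have e2 : ∀ i, (q i : ℤ) ∣ d := fun i => (ZMod.intCast_zmod_eq_zero_iff_dvd d _).mp
        (congrFun (congrArg Prod.snd e) i)
      have e3 : ∏ i, (q i : ℤ) ∣ d := Finset.prod_dvd_of_coprime
        (fun i _ j _ hij => Nat.isCoprime_iff_coprime.mpr (hco hij)) fun i _ => e2 i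
      have e4 : IsCoprime ((2 ^ s : ℕ) : ℤ) (∏ i, (q i : ℤ)) :=
        IsCoprime.prod_right fun i _ => Nat.isCoprime_iff_coprime.mpr
          (Nat.Coprime.pow_left _ (Nat.coprime_two_left.mpr (hq i).2.2))
      refine Int.eq_zero_of_abs_lt_dvd (e4.mul_dvd e1 e3) (hd.trans_le ?_)
      exact_mod_cast hN1)
  refine hc.mono ?_
  have hN : Fintype.card (ZMod (2 ^ s) × ∀ i, ZMod (q i)) = 2 ^ s * ∏ i, q i := by simp
  rw [hN]
  obtain ⟨N, hNe⟩ : ∃ N, N = 2 ^ s * ∏ i, q i := ⟨_, rfl⟩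
  rw [← hNe] at hN2 ⊢
  have hNr : (N : ℝ) ≤ 4 * n := by exact_mod_cast hN2
  have hr' : (1 : ℝ) ≤ r := by exact_mod_cast hr
  have hs' : (s : ℝ) ≤ 5 * r := by exact_mod_cast hs2
  have ha1 : 1 ≤ (r : ℝ) ^ α := Real.one_le_rpow hr' h0.le
  have ha2 : (r + 1 : ℝ) ^ α ≤ 2 * (r : ℝ) ^ α := by
    calc (r + 1 : ℝ) ^ α ≤ (2 * r : ℝ) ^ α := by gcongr; linarith
      _ = 2 ^ α * (r : ℝ) ^ α := Real.mul_rpow (by norm_num) (by linarith)
      _ ≤ 2 ^ (1 : ℝ) * (r : ℝ) ^ α := by gcongr; norm_num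
      _ = _ := by simp
  have hD : ((8 * (90 + 48 * (105 * r ^ 2 + 2)) : ℕ) : ℝ) ≤ 41808 * r ^ 2 := by
    push_cast; nlinarith
  have hT : A * (r + 1 : ℝ) ^ α + 1 ≤ (2 * A + 1) * (r : ℝ) ^ α := by nlinarith
  obtain ⟨ρ, hρ⟩ : ∃ ρ : ℝ, ρ = (r : ℝ) ^ 2 * (r : ℝ) ^ α := ⟨_, rfl⟩
  have hρ1 : (r : ℝ) ≤ ρ := by rw [hρ]; nlinarith
  have hρ2 : ρ ≤ Real.logb 2 n ^ (1 - (1 - α) / 3) := by
    have a : (r : ℝ) ^ (3 : ℝ) ≤ Real.logb 2 n := by
      rw [Real.le_logb_iff_rpow_le (by norm_num) (by linarith)]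
      have b : (2 : ℝ) ^ (13 * r ^ 3) ≤ n := by exact_mod_cast hr1
      refine le_trans ?_ b
      rw [← Real.rpow_natCast]
      apply Real.rpow_le_rpow_of_exponent_le (by norm_num)
      rw [show (3 : ℝ) = (3 : ℕ) by norm_num, Real.rpow_natCast]
      push_cast
      have : (0 : ℝ) ≤ r ^ 3 := by positivity
      linarith
    calc ρ = ((r : ℝ) ^ (3 : ℝ)) ^ (1 - (1 - α) / 3) := by
          rw [← Real.rpow_mul (by linarith), hρ, ← Real.rpow_natCast, ← Real.rpow_add (by linarith)]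
          congr 1; push_cast; ring
      _ ≤ _ := Real.rpow_le_rpow (by positivity) a (by linarith)
  have hx : 2 + 5 * (s : ℝ) + ((8 * (90 + 48 * (105 * r ^ 2 + 2)) : ℕ) : ℝ) *
      (A * (r + 1 : ℝ) ^ α + 1) ≤ (27 + 41808 * (2 * A + 1)) * ρ := by
    have := mul_le_mul hD hT (by positivity) (by positivity)
    have e : 41808 * (r : ℝ) ^ 2 * ((2 * A + 1) * (r : ℝ) ^ α) = 41808 * (2 * A + 1) * ρ := by
      rw [hρ]; ring
    linarith
  have hy := mul_le_mul hx hNr (by positivity) (by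
    have : 0 ≤ ρ := by linarith
    positivity)
  have hz : (n : ℝ) ≤ n * ρ := by nlinarith
  calc _ ≤ K * (n * ρ) := by rw [hK]; linarith
    _ ≤ (K + 16384) * (n * Real.logb 2 n ^ (1 - (1 - α) / 3)) := by
      have : 0 ≤ ρ := by linarith
      gcongr; linarith
    _ = _ := by ring

end Vale.Agent.P344
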