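import Vale.Agent.P344.Invoke

/-!
The three-stage network: a batch of arrays is transformed with fewer layers than one by one.
-/

namespace Vale.Agent.P344

open Finset Kronecker

abbrev I3 := Fin 13 × Fin 13 × Fin 13
abbrev M1 := Matrix (Fin 13) (Fin 13) (ZMod 2)

def k3 (A B C : M1) : Matrix I3 I3 (ZMod 2) := A ⊗ₖ (B ⊗ₖ C)

lemma k3_apply (A B C : M1) (p q : I3) :
    k3 A B C p q = A p.1 q.1 * (B p.2.1 q.2.1 * C p.2.2 q.2.2) := rfl

lemma k3_one : (1 : Matrix I3 I3 (ZMod 2)) = k3 1 1 1 := by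
  unfold k3; rw [Matrix.one_kronecker_one, Matrix.one_kronecker_one]

lemma rk_k3 {A B C : M1} {a b c : ℕ} (ha : Rk A a) (hb : Rk B b) (hc : Rk C c) :
    Rk (k3 A B C) (a * (b * c)) := ha.kron (hb.kron hc)

lemma rk_1 : Rk (1 : M1) 13 := by simpa using Rk.one (μ := Fin 13)

lemma k3_ids (I A J B K C : M1) :
    (0 + k3 0 B C = 0) ∧ (0 + k3 A B C = k3 A B C) ∧
    (0 + k3 I B C + k3 I J K = k3 I (J + B) K + k3 I B (K + C)) ∧
    (0 + k3 (I + A) B C + (k3 (I + A) J C + k3 A 0 C) = k3 (I + A) (J + B) C) ∧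
    (0 + k3 I B C + (k3 (I + A) J C + k3 A B C) = k3 (I + A) (J + B) C) ∧
    (0 + (k3 (I + A) J C + k3 A 0 C) = k3 (I + A) J C) ∧
    (k3 (I + A) J C + k3 A J C + k3 I J K = k3 I J (K + C)) ∧
    (k3 (I + A) J C + k3 A (J + B) C + (k3 (I + A) J K + k3 A (J + B) K + k3 A B 0) =
      k3 (I + A) J (K + C) + k3 A (J + B) (K + C)) ∧
    (k3 (I + A) J C + k3 A J C + (k3 (I + A) J K + k3 A (J + B) K + k3 A B C) =
      k3 (I + A) J (K + C) + k3 A (J + B) (K + C)) ∧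
    (0 + (k3 (I + A) J K + k3 A (J + B) K + k3 A B 0) = k3 (I + A) J K + k3 A (J + B) K) ∧
    (k3 (I + A) J K + k3 A (J + B) K + k3 A B K = k3 I J K) ∧
    (k3 (I + A) J K + k3 A (J + B) K + k3 A B (K + C) + k3 A B C = k3 I J K) := by
  refine ⟨?_, ?_, ?_, ?_, ?_, ?_, ?_, ?_, ?_, ?_, ?_, ?_⟩ <;>
  · ext p q
    simp only [Matrix.add_apply, k3_apply, Matrix.zero_apply]
    generalize I p.1 q.1 = i
    generalize A p.1 q.1 = a
    generalize J p.2.1 q.2.1 = j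
    generalize B p.2.1 q.2.1 = b
    generalize K p.2.2 q.2.2 = k
    generalize C p.2.2 q.2.2 = c
    revert i a j b k c
    decide

lemma k3_add1 (B C A A' : M1) : k3 (A + A') B C = k3 A B C + k3 A' B C := by
  ext p q; simp only [Matrix.add_apply, k3_apply]; ring
lemma k3_add2 (A C B B' : M1) : k3 A (B + B') C = k3 A B C + k3 A B' C := by
  ext p q; simp only [Matrix.add_apply, k3_apply]; ring
lemma k3_add3 (A B C C' : M1) : k3 A B (C + C') = k3 A B C + k3 A B C' := by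
  ext p q; simp only [Matrix.add_apply, k3_apply]; ring

noncomputable def WW : ℕ := 2 * 286 ^ 3 + 3 * 286 ^ 2 * pp
noncomputable def gNet : ℕ := 2 * 286 ^ 3 + 3 * 286 ^ 2 * gInv

variable {β : Type} [Fintype β] [DecidableEq β]
variable {V : Type} [AddCommGroup V] [Module ℂ V] {τ : ℝ}

lemma network (hτ : 0 ≤ τ) (hC : Cost (Cpow β) (τ * 2 ^ Fintype.card β))
    (X Y : Tr × Tr × Tr → (β × I3 → ZMod 2) → V)
    (Z0 Z1 Z2 : (Tr × Tr) × Tr × Tr → (β × I3 → ZMod 2) → V) (S : Set V)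
    (hX : ∀ a, Set.range (X a) ⊆ S) (hY : ∀ a, Set.range (Y a) ⊆ S)
    (hZ0 : ∀ q ∈ univ ×ˢ Prs, Set.range (Z0 q) ⊆ S)
    (hZ1 : ∀ q ∈ univ ×ˢ Prs, Set.range (Z1 q) ⊆ S)
    (hZ2 : ∀ q ∈ univ ×ˢ Prs, Set.range (Z2 q) ⊆ S) :
    RL τ (Fintype.card (β × I3 → ZMod 2)) S (WW * 2197 - 1) gNet
      ((⋃ a, Av β 1 (X a)) ∪ (⋃ a, Av β 1 (Y a)) ∪ (⋃ q ∈ univ ×ˢ Prs, Av β 1 (Z0 q)) ∪
        (⋃ q ∈ univ ×ˢ Prs, Av β 1 (Z1 q)) ∪ (⋃ q ∈ univ ×ˢ Prs, Av β 1 (Z2 q))) := by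
  have mp : ∀ (g π : Tr × Tr), π ∈ Prs → (g, π) ∈ (univ : Finset (Tr × Tr)) ×ˢ Prs :=
    fun g π h => mem_product.mpr ⟨mem_univ _, h⟩
  have id := fun a : Tr × Tr × Tr => k3_ids 1 (PT a.1) 1 (PT a.2.1) 1 (PT a.2.2)
  set y : Tr × Tr × Tr → (β × I3 → ZMod 2) → V :=
    fun a => app (Phi β (k3 (PT a.1) (PT a.2.1) (PT a.2.2))) (Y a) with hy
  apply RL.mono hτ
  case h =>
    apply RL.bindFam univ _ (fun (g : Tr × Tr) _ => fwd hτ hC 0 (fun M => k3 M (PT g.1) (PT g.2))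
      (k3_add1 _ _) (fun M d h => by simpa using rk_k3 h (rk_PT g.1) (rk_PT g.2))
      (fun T => X (T, g)) (fun T => y (T, g)) (fun π => Z0 (g, π)) S
      (fun T => by rw [(id (T, g)).1, Av_zero]; exact hX _)
      (fun T => by
        rw [(id (T, g)).2.1, hy]
        simp only
        rw [← Av_add, mat_add_self, Av_zero]; exact hY _)
      (fun π hπ => by rw [(id (g.1, g)).1, Av_zero]; exact hZ0 _ (mp g π hπ)))
    intro S1 i1 s1
    simp only [mem_univ, forall_true_left, Set.union_subset_iff, Set.iUnion_subset_iff] at s1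
    apply RL.bindFam (univ ×ˢ Prs) (fun q => Av β 1 (Z0 q))
      (fun q hq => RL.move hτ hC (d := 13 * (12 * 13) + 13 * (1 * 12)) (by
          rw [k3_one, (id (q.1.1, q.1)).2.2.1]
          exact (rk_k3 rk_1 (rk_Q _) rk_1).add (rk_k3 rk_1 (rk_PT _) (rk_Q _)))
        ((s1 q.1).2 q.2 (mem_product.mp hq).2))
    intro S2 i2 s2
    apply RL.bindFam univ (fun a : Tr × Tr × Tr => Av β (k3 (1 + PT a.1) 1 (PT a.2.2) +
        k3 (PT a.1) 0 (PT a.2.2)) (X a))
      (fun a _ => RL.move hτ hC (d := 12 * (12 * 1)) (by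
          rw [(id a).2.2.2.1]
          exact rk_k3 (rk_Q _) (rk_Q _) (rk_PT _))
        (((s1 a.2).1.1 a.1).trans i2))
    intro S3 i3 s3
    apply RL.bindFam univ (fun a : Tr × Tr × Tr => Av β (k3 (1 + PT a.1) 1 (PT a.2.2) +
        k3 (PT a.1) (PT a.2.1) (PT a.2.2)) (y a + X a))
      (fun a _ => RL.move hτ hC (d := 12 * (12 * 1)) (by
          rw [(id a).2.2.2.2.1]
          exact rk_k3 (rk_Q _) (rk_Q _) (rk_PT _))
        (((s1 a.2).1.2 a.1).trans (i2.trans i3)))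
    intro S4 i4 s4
    apply RL.bindFam (univ ×ˢ Prs) (fun q => Av β (k3 (1 + PT q.1.1) 1 (PT q.1.2) +
        k3 (PT q.1.1) 0 (PT q.1.2)) (Z1 q))
      (fun q hq => RL.move hτ hC (M := 0) (d := 12 * (13 * 1)) (by
          rw [(id (q.1.1, q.1)).2.2.2.2.2.1]
          exact rk_k3 (rk_Q _) rk_1 (rk_PT _))
        (by rw [Av_zero]; exact (hZ1 q hq).trans (i1.trans (i2.trans (i3.trans i4)))))
    intro S5 i5 s5
    apply RL.bindFam univ _ (fun (g : Tr × Tr) _ => bwd hτ hC (k3 (1 + PT g.1) 1 (PT g.2))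
      (fun M => k3 (PT g.1) M (PT g.2))
      (k3_add2 _ _) (fun M d h => by simpa using rk_k3 (rk_PT g.1) h (rk_PT g.2))
      (fun T => X (g.1, T, g.2)) (fun T => y (g.1, T, g.2) + X (g.1, T, g.2))
      (fun π => Z1 (g, π)) S5
      (fun T => (s3 (g.1, T, g.2) (mem_univ _)).trans (i4.trans i5))
      (fun T => (s4 (g.1, T, g.2) (mem_univ _)).trans i5)
      (fun π hπ => s5 (g, π) (mp g π hπ)))
    intro S6 i6 s6
    simp only [mem_univ, forall_true_left, Set.union_subset_iff, Set.iUnion_subset_iff] at s6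
    apply RL.bindFam (univ ×ˢ Prs) (fun q => Av β 1 (Z1 q))
      (fun q hq => RL.move hτ hC (d := 13 * (13 * 12)) (by
          rw [k3_one, (id (q.1.1, q.1)).2.2.2.2.2.2.1]
          exact rk_k3 rk_1 rk_1 (rk_Q _))
        ((s6 q.1).2 q.2 (mem_product.mp hq).2))
    intro S7 i7 s7
    apply RL.bindFam univ (fun a : Tr × Tr × Tr => Av β (k3 (1 + PT a.1) 1 1 +
        k3 (PT a.1) (1 + PT a.2.1) 1 + k3 (PT a.1) (PT a.2.1) 0) (X a - (y a + X a)))
      (fun a _ => RL.move hτ hC (d := 12 * (13 * 12) + 1 * (12 * 12)) (by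
          rw [(id a).2.2.2.2.2.2.2.1]
          exact (rk_k3 (rk_Q _) rk_1 (rk_Q _)).add (rk_k3 (rk_PT _) (rk_Q _) (rk_Q _)))
        (((s6 (a.1, a.2.2)).1.1 a.2.1).trans i7))
    intro S8 i8 s8
    apply RL.bindFam univ (fun a : Tr × Tr × Tr => Av β (k3 (1 + PT a.1) 1 1 +
        k3 (PT a.1) (1 + PT a.2.1) 1 + k3 (PT a.1) (PT a.2.1) (PT a.2.2)) (y a + X a))
      (fun a _ => RL.move hτ hC (d := 12 * (13 * 12) + 1 * (12 * 12)) (by
          rw [(id a).2.2.2.2.2.2.2.2.1]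
          exact (rk_k3 (rk_Q _) rk_1 (rk_Q _)).add (rk_k3 (rk_PT _) (rk_Q _) (rk_Q _)))
        (((s6 (a.1, a.2.2)).1.2 a.2.1).trans (i7.trans i8)))
    intro S9 i9 s9
    apply RL.bindFam (univ ×ˢ Prs) (fun q => Av β (k3 (1 + PT q.1.1) 1 1 +
        k3 (PT q.1.1) (1 + PT q.1.2) 1 + k3 (PT q.1.1) (PT q.1.2) 0) (Z2 q))
      (fun q hq => RL.move hτ hC (M := 0) (d := 12 * (13 * 13) + 1 * (12 * 13)) (by
          rw [(id (q.1.1, q.1.2, q.1.1)).2.2.2.2.2.2.2.2.2.1]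
          exact (rk_k3 (rk_Q _) rk_1 rk_1).add (rk_k3 (rk_PT _) (rk_Q _) rk_1))
        (by
          rw [Av_zero]
          exact (hZ2 q hq).trans (i1.trans (i2.trans (i3.trans (i4.trans (i5.trans (i6.trans
            (i7.trans (i8.trans i9))))))))))
    intro S10 i10 s10
    apply RL.bindFam univ _ (fun (g : Tr × Tr) _ => fwd hτ hC
      (k3 (1 + PT g.1) 1 1 + k3 (PT g.1) (1 + PT g.2) 1) (fun M => k3 (PT g.1) (PT g.2) M)
      (k3_add3 _ _) (fun M d h => by simpa using rk_k3 (rk_PT g.1) (rk_PT g.2) h)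
      (fun T => X (g.1, g.2, T) - (y (g.1, g.2, T) + X (g.1, g.2, T)))
      (fun T => y (g.1, g.2, T) + X (g.1, g.2, T))
      (fun π => Z2 (g, π)) S10
      (fun T => (s8 (g.1, g.2, T) (mem_univ _)).trans (i9.trans i10))
      (fun T => (s9 (g.1, g.2, T) (mem_univ _)).trans i10)
      (fun π hπ => s10 (g, π) (mp g π hπ)))
    intro S11 i11 s11
    simp only [mem_univ, forall_true_left, Set.union_subset_iff, Set.iUnion_subset_iff] at s11
    apply RL.bindFam univ (fun a : Tr × Tr × Tr => Av β (k3 (1 + PT a.1) 1 1 +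
        k3 (PT a.1) (1 + PT a.2.1) 1 + k3 (PT a.1) (PT a.2.1) (1 + PT a.2.2))
        (∑ _i ∈ (univ : Finset Unit), (-1 : ℂ) • (X a - (y a + X a))))
      (fun a _ => RL.lin _ _ _ fun _ _ => (s11 (a.1, a.2.1)).1.1 a.2.2)
    intro S12 i12 s12
    apply RL.done
    refine (Set.union_subset (Set.union_subset (Set.union_subset (Set.union_subset
      ?_ ?_) ?_) ?_) ?_)
    · refine Set.iUnion_subset fun a => ?_
      have := ((s11 (a.1, a.2.1)).1.2 a.2.2).trans i12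
      rw [(id a).2.2.2.2.2.2.2.2.2.2.1, ← k3_one] at this
      simpa using this
    · refine Set.iUnion_subset fun a => ?_
      have := s12 a (mem_univ _)
      have e : (∑ _i ∈ (univ : Finset Unit), (-1 : ℂ) • (X a - (y a + X a))) = y a := by simp
      rw [e, hy] at this
      simp only at this
      rwa [← Av_add, (id a).2.2.2.2.2.2.2.2.2.2.2, ← k3_one] at this
    · exact Set.iUnion₂_subset fun q hq => (s2 q hq).trans (i3.trans (i4.trans (i5.trans
        (i6.trans (i7.trans (i8.trans (i9.trans (i10.trans (i11.trans i12)))))))))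
    · exact Set.iUnion₂_subset fun q hq => (s7 q hq).trans
        (i8.trans (i9.trans (i10.trans (i11.trans i12))))
    · refine Set.iUnion₂_subset fun q hq => ?_
      have := ((s11 q.1).2 q.2 (mem_product.mp hq).2).trans i12
      rwa [(id (q.1.1, q.1.2, q.1.1)).2.2.2.2.2.2.2.2.2.2.1, ← k3_one] at this
  case hl =>
    apply Nat.le_sub_one_of_lt
    simp only [card_univ, card_product, Fintype.card_prod, card_Tr, WW, pp]
    linarith
  case hg =>
    simp only [card_univ, card_product, Fintype.card_prod, card_Tr, gNet, Fintype.card_unit]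
    linarith

end Vale.Agent.P344
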