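import Vale.Agent.P344.Network

/-!
Iterating the network gives a power saving for tensor powers of the basic two by two matrix.
-/

namespace Vale.Agent.P344

open Finset

abbrev Wire := (Tr × Tr × Tr) ⊕ (Tr × Tr × Tr) ⊕
  (Fin 3 × {q // q ∈ (univ : Finset (Tr × Tr)) ×ˢ Prs})

lemma card_Wire : Fintype.card Wire = WW := by
  simp only [Fintype.card_sum, Fintype.card_prod, Fintype.card_coe, card_product, card_univ,
    card_Tr, Fintype.card_fin, WW, pp]
  ring

section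
variable {β : Type} [Fintype β] [DecidableEq β]
variable {V : Type} [AddCommGroup V] [Module ℂ V] {τ : ℝ}

lemma batch (hτ : 0 ≤ τ) (hC : Cost (Cpow β) (τ * 2 ^ Fintype.card β))
    {Y : Type} [Fintype Y] (hY : WW ≤ Fintype.card Y) (z : Y → (β × I3 → ZMod 2) → V) (S : Set V)
    (hz : ∀ y, Set.range (z y) ⊆ S) :
    RL τ (Fintype.card (β × I3 → ZMod 2)) S (Fintype.card Y * 2197 - 1) gNet
      (⋃ y, Av β 1 (z y)) := by
  classical
  obtain ⟨f⟩ := Function.Embedding.nonempty_of_card_le (α := Wire) (β := Y) (card_Wire ▸ hY)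
  let Z : Fin 3 → (Tr × Tr) × Tr × Tr → (β × I3 → ZMod 2) → V := fun k q =>
    if h : q ∈ (univ : Finset (Tr × Tr)) ×ˢ Prs then z (f (Sum.inr (Sum.inr (k, ⟨q, h⟩)))) else 0
  have hZ : ∀ k, ∀ q ∈ (univ : Finset (Tr × Tr)) ×ˢ Prs, Set.range (Z k q) ⊆ S := by
    intro k q hq
    simp only [Z, dif_pos hq]
    exact hz _
  have h1 := network hτ hC (fun a => z (f (Sum.inl a))) (fun a => z (f (Sum.inr (Sum.inl a))))
    (Z 0) (Z 1) (Z 2) S (fun a => hz _) (fun a => hz _) (hZ 0) (hZ 1) (hZ 2)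
  have hW : 1 ≤ WW := by unfold WW; omega
  apply RL.mono hτ
  case h =>
    apply h1.bind
    intro S1 i1 s1
    apply RL.bindFam (univ.map f)ᶜ (fun y => Av β 1 (z y))
      (fun y _ => RL.move hτ hC (M := 0) (d := 2197) (by simpa using Rk.one (μ := I3))
        (by rw [Av_zero]; exact (hz y).trans i1))
    intro S2 i2 s2
    apply RL.done
    refine Set.iUnion_subset fun y => ?_
    by_cases hy : y ∈ univ.map f
    · obtain ⟨w, _, rfl⟩ := mem_map.mp hy
      simp only [Set.union_subset_iff, Set.iUnion_subset_iff] at s1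
      refine Set.Subset.trans ?_ i2
      rcases w with a | a | ⟨k, q, hq⟩
      · exact s1.1.1.1.1 a
      · exact s1.1.1.1.2 a
      · have e : ∀ k, z (f (Sum.inr (Sum.inr (k, ⟨q, hq⟩)))) = Z k q := by
          intro k; simp only [Z, dif_pos hq]
        rw [e]
        fin_cases k
        · exact s1.1.1.2 q hq
        · exact s1.1.2 q hq
        · exact s1.2 q hq
    · exact s2 y (mem_compl.mpr hy)
  case hl =>
    rw [card_compl, card_map, card_univ, card_Wire]
    obtain ⟨c, hc⟩ := Nat.exists_eq_add_of_le hY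
    rw [hc, Nat.add_sub_cancel_left, add_mul]
    omega
  case hg => simp

end

lemma Cpow_congr {J J' : Type} [Fintype J] [Fintype J'] [DecidableEq J] [DecidableEq J']
    (e : J ≃ J') {x : ℝ} (h : Cost (Cpow J') x) : Cost (Cpow J) x := by
  have := h.reindex (fun g : J → ZMod 2 => g ∘ e.symm) (Equiv.arrowCongr e (Equiv.refl _))
  convert this using 1
  ext g g'
  simp only [Cpow, Matrix.submatrix_apply, Equiv.arrowCongr_apply, Equiv.coe_refl, Function.comp,
    id]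
  exact (Equiv.prod_comp e.symm fun k => cc (g k + g' k)).symm

lemma app_Cpow_sum {A K : Type} [Fintype A] [Fintype K] [DecidableEq A] [DecidableEq K]
    {V : Type} [AddCommGroup V] [Module ℂ V] (z : (A ⊕ K → ZMod 2) → V) (g : A ⊕ K → ZMod 2) :
    app (Cpow (A ⊕ K)) z g = app (Cpow A)
      (fun g' => app (Cpow K) (fun h' => z (Sum.elim g' h')) (g ∘ Sum.inr)) (g ∘ Sum.inl) := by
  simp only [app, Cpow, smul_sum, smul_smul]
  rw [← Equiv.sum_comp (Equiv.sumArrowEquivProdArrow A K (ZMod 2)).symm, Fintype.sum_prod_type]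
  refine sum_congr rfl fun g' _ => sum_congr rfl fun h' _ => ?_
  simp [Fintype.prod_sum_type, Equiv.sumArrowEquivProdArrow]

def PC (r : ℕ) (τ : ℝ) : Prop :=
  ∀ (J : Type) [Fintype J] [DecidableEq J], Fintype.card J = r → Cost (Cpow J) (τ * 2 ^ r)

lemma PC.dense (r : ℕ) : PC r (2 * 2 ^ r) := by
  intro J _ _ hJ
  refine (Cost.dense (Cpow J)).mono (le_of_eq ?_)
  simp [hJ]; ring

lemma PC.mono {r : ℕ} {τ τ' : ℝ} (h : PC r τ) (hτ : τ ≤ τ') : PC r τ' :=
  fun J _ _ hJ => (h J hJ).mono (mul_le_mul_of_nonneg_right hτ (by positivity))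

lemma PC.step {b κ k1 : ℕ} {τ : ℝ} (hτ : 0 ≤ τ) (h : PC b τ) (h0 : WW ≤ κ) (h1 : κ ≤ k1) :
    PC (2197 * b + κ) ((2197 - (2 ^ k1)⁻¹) * τ + (2 * 2 ^ k1 + gNet)) := by
  intro J _ _ hJ
  have hC := h (Fin b) (by simp)
  obtain ⟨e⟩ : Nonempty (J ≃ (Fin b × I3) ⊕ Fin κ) := by
    rw [← Fintype.card_eq]; simp [hJ]; ring
  refine Cpow_congr e ?_
  intro V _ _ z
  have s1 := RR.fam (S := Set.range z) (univ : Finset (Fin b × I3 → ZMod 2)) _
    (fun g' => Set.range (app (Cpow (Fin κ)) (fun h' => z (Sum.elim g' h'))))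
    (fun g' _ => (Cost.dense (Cpow (Fin κ)) V _).left (by rintro _ ⟨h', rfl⟩; exact ⟨_, rfl⟩))
  have hY : WW ≤ Fintype.card (Fin κ → ZMod 2) := by
    simp only [Fintype.card_fun, ZMod.card, Fintype.card_fin]
    exact h0.trans Nat.lt_two_pow_self.le
  have s2 := s1.bind fun S' _ h2 => batch hτ (by simpa using hC) hY
    (fun h g' => app (Cpow (Fin κ)) (fun h' => z (Sum.elim g' h')) h) S' (by
      rintro h _ ⟨g', rfl⟩
      exact h2 (Set.mem_biUnion (mem_univ g') ⟨h, rfl⟩))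
  refine (s2.right ?_).mono ?_
  · rintro _ ⟨g, rfl⟩
    refine Set.mem_iUnion.mpr ⟨g ∘ Sum.inr, ?_⟩
    rw [Av_one, app_Cpow_sum]
    exact ⟨_, rfl⟩
  · simp only [sum_const, card_univ, Fintype.card_fun, ZMod.card, Fintype.card_fin,
      Fintype.card_prod, nsmul_eq_mul]
    have e1 : 1 ≤ 2 ^ κ * 2197 := Nat.one_le_iff_ne_zero.mpr (by positivity)
    rw [Nat.cast_sub e1]
    push_cast
    have e2 : b * 2197 = 2197 * b := by ring
    rw [e2, pow_add]
    have p1 : (0 : ℝ) < 2 ^ (2197 * b) := by positivity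
    have p2 : (1 : ℝ) ≤ 2 ^ κ := one_le_pow₀ (by norm_num)
    have p3 : (2 : ℝ) ^ κ ≤ 2 ^ k1 := pow_le_pow_right₀ (by norm_num) h1
    have p4 : (2 : ℝ) ^ κ * (2 ^ k1)⁻¹ ≤ 1 := by
      rw [← div_eq_mul_inv, div_le_one (by positivity)]; exact p3
    have p5 : (0 : ℝ) ≤ gNet := Nat.cast_nonneg _
    generalize (2 : ℝ) ^ (2197 * b) = P at *
    generalize (2 : ℝ) ^ κ = Q at *
    generalize ((2 : ℝ) ^ k1)⁻¹ = u at *
    generalize (2 : ℝ) ^ k1 = R at *
    generalize (gNet : ℝ) = G at *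
    have q1 : Q * (2 * Q) ≤ Q * (2 * R) := by nlinarith
    have q2 : (Q * 2197 - 1) * τ ≤ Q * ((2197 - u) * τ) := by nlinarith
    have q3 : G ≤ Q * G := by nlinarith
    nlinarith

theorem power_saving : ∃ α A : ℝ, 0 < α ∧ α < 1 ∧ 0 < A ∧ ∀ r : ℕ, PC r (A * (r + 1 : ℝ) ^ α) := by
  obtain ⟨k0, hk0, hk0'⟩ : ∃ k0, WW ≤ k0 ∧ 2197 ≤ k0 := ⟨max WW 2197, le_max_left _ _, le_max_right _ _⟩
  obtain ⟨k1, hk1⟩ : ∃ k1, k0 + 2197 ≤ k1 := ⟨_, le_rfl⟩
  obtain ⟨u, hu⟩ : ∃ u : ℝ, u = (2 ^ k1)⁻¹ := ⟨_, rfl⟩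
  obtain ⟨G, hG⟩ : ∃ G : ℝ, G = 2 * 2 ^ k1 + gNet := ⟨_, rfl⟩
  have u0 : 0 < u := by rw [hu]; positivity
  have u1 : u ≤ 1 := by rw [hu]; exact inv_le_one_of_one_le₀ (one_le_pow₀ (by norm_num))
  have G0 : 0 < G := by rw [hG]; positivity
  obtain ⟨α, hα⟩ : ∃ α, α = Real.logb 2197 (2197 - u / 2) := ⟨_, rfl⟩
  have hpow : (2197 : ℝ) ^ α = 2197 - u / 2 := by
    rw [hα]; exact Real.rpow_logb (by norm_num) (by norm_num) (by linarith)
  have α0 : 0 < α := by rw [hα]; exact Real.logb_pos (by norm_num) (by linarith)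
  have α1 : α < 1 := by
    rw [hα, Real.logb_lt_iff_lt_rpow (by norm_num) (by linarith), Real.rpow_one]; linarith
  have hA : G ≤ 2 * G / u := by
    rw [le_div_iff₀ u0]; nlinarith
  refine ⟨α, 2 * G / u, α0, α1, by positivity, fun r => ?_⟩
  induction r using Nat.strong_induction_on with
  | _ r ih =>
    have one_le : ∀ s : ℕ, (1 : ℝ) ≤ (s + 1 : ℝ) ^ α := fun s =>
      Real.one_le_rpow (by linarith [(Nat.cast_nonneg s : (0 : ℝ) ≤ s)]) α0.le
    by_cases hr : r < k0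
    · refine (PC.dense r).mono ?_
      have h1 : (2 : ℝ) ^ r ≤ 2 ^ k1 := pow_le_pow_right₀ (by norm_num) (by omega)
      have h2 : (0 : ℝ) ≤ gNet := Nat.cast_nonneg _
      have h3 := one_le r
      have h4 : 0 < 2 * G / u := by positivity
      nlinarith
    · obtain ⟨b, κ, hb, hκ0, hκ1⟩ : ∃ b κ, r = 2197 * b + κ ∧ k0 ≤ κ ∧ κ ≤ k1 :=
        ⟨(r - k0) / 2197, r - 2197 * ((r - k0) / 2197), by omega, by omega, by omega⟩
      have h4 : 0 < 2 * G / u := by positivity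
      have := PC.step (by positivity) (ih b (by omega)) (by omega : WW ≤ κ) hκ1
      rw [← hb] at this
      refine this.mono ?_
      have h5 : (2197 * (b + 1 : ℝ)) ^ α ≤ (r + 1 : ℝ) ^ α := by
        apply Real.rpow_le_rpow (by positivity) _ α0.le
        have : 2197 * (b + 1) ≤ r + 1 := by omega
        exact_mod_cast this
      rw [Real.mul_rpow (by norm_num) (by positivity), hpow] at h5
      have h6 := one_le b
      have h7 : 2 * G / u * (u / 2) = G := by field_simp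
      rw [← hu, ← hG]
      generalize (b + 1 : ℝ) ^ α = x at *
      generalize (r + 1 : ℝ) ^ α = y at *
      generalize 2 * G / u = A at *
      have h8 : A * ((2197 - u / 2) * x) ≤ A * y := mul_le_mul_of_nonneg_left h5 h4.le
      have h9 : A * (u / 2) * 1 ≤ A * (u / 2) * x := mul_le_mul_of_nonneg_left h6 (by positivity)
      nlinarith

end Vale.Agent.P344
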