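import Vale.Agent.P344.Walsh

/-!
Sums of rank-one symmetric binary matrices.
-/

namespace Vale.Agent.P344

open Finset Kronecker

/-- `M` is a sum of at most `d` matrices `w wᵀ` -/
inductive Rk {μ : Type} : Matrix μ μ (ZMod 2) → ℕ → Prop
  | zero (d : ℕ) : Rk 0 d
  | step {M : Matrix μ μ (ZMod 2)} {d : ℕ} (w : μ → ZMod 2) : Rk M d → Rk (PP w + M) (d + 1)

section
variable {μ ν : Type}

lemma mat_add_self (M : Matrix μ μ (ZMod 2)) : M + M = 0 := by
  ext i j; exact z2_add_self _

lemma Rk.mono {M : Matrix μ μ (ZMod 2)} {d d' : ℕ} (h : Rk M d) (hd : d ≤ d') : Rk M d' := by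
  induction h generalizing d' with
  | zero => exact Rk.zero _
  | step w _ ih =>
    obtain ⟨e, rfl⟩ : ∃ e, d' = e + 1 := ⟨d' - 1, by omega⟩
    exact Rk.step w (ih (by omega))

lemma Rk.add {M M' : Matrix μ μ (ZMod 2)} {d d' : ℕ} (h : Rk M d) (h' : Rk M' d') :
    Rk (M + M') (d + d') := by
  induction h with
  | zero => rw [zero_add]; exact h'.mono (by omega)
  | step w _ ih => rw [add_assoc, add_right_comm]; exact Rk.step w ih

lemma Rk.pp (w : μ → ZMod 2) : Rk (PP w) 1 := by
  simpa using Rk.step w (Rk.zero 0)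

lemma Rk.sum {ρ : Type} (s : Finset ρ) (w : ρ → μ → ZMod 2) : Rk (∑ i ∈ s, PP (w i)) s.card := by
  classical
  induction s using Finset.induction_on with
  | empty => exact Rk.zero _
  | insert a s ha ih => rw [sum_insert ha, card_insert_of_notMem ha]; exact Rk.step _ ih

lemma Rk.kron {M : Matrix μ μ (ZMod 2)} {N : Matrix ν ν (ZMod 2)} {d d' : ℕ} (h : Rk M d)
    (h' : Rk N d') : Rk (M ⊗ₖ N) (d * d') := by
  have key : ∀ (w : μ → ZMod 2), Rk (PP w ⊗ₖ N) d' := by
    intro w
    induction h' with
    | zero => rw [Matrix.kronecker_zero]; exact Rk.zero _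
    | step w' _ ih =>
      rw [Matrix.kronecker_add]
      have : PP w ⊗ₖ PP w' = PP fun p : μ × ν => w p.1 * w' p.2 := by
        ext p q; simp only [PP, Matrix.kroneckerMap_apply]; ring
      rw [this]
      exact Rk.step _ ih
  induction h with
  | zero => rw [Matrix.zero_kronecker]; exact Rk.zero _
  | step w _ ih =>
    rw [Matrix.add_kronecker, add_mul, one_mul, add_comm (_ * d')]
    exact (key w).add ih

variable [DecidableEq μ]

def ind (T : Finset μ) : μ → ZMod 2 := fun i => if i ∈ T then 1 else 0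

def dg (U : Finset μ) : Matrix μ μ (ZMod 2) := ∑ i ∈ U, PP (ind {i})

lemma rk_dg (U : Finset μ) : Rk (dg U) U.card := Rk.sum _ _

lemma dg_apply (U : Finset μ) (i j : μ) : dg U i j = if i = j ∧ i ∈ U then 1 else 0 := by
  simp only [dg, Matrix.sum_apply, PP, ind, mem_singleton, mul_ite, mul_one, mul_zero]
  by_cases h : i = j
  · subst h; simp
  · simp only [h, false_and, if_false]
    refine sum_eq_zero fun x _ => ?_
    split_ifs with h1 h2
    · exact absurd (h2.trans h1.symm) h
    · rfl
    · rfl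

lemma dg_univ [Fintype μ] : dg (univ : Finset μ) = 1 := by
  ext i j; simp [dg_apply, Matrix.one_apply]

lemma Rk.one [Fintype μ] : Rk (1 : Matrix μ μ (ZMod 2)) (Fintype.card μ) := by
  rw [← dg_univ]; exact rk_dg _

lemma dg_split [Fintype μ] (U : Finset μ) : (1 : Matrix μ μ (ZMod 2)) = dg Uᶜ + dg U := by
  rw [← dg_univ, dg, dg, dg, sum_compl_add_sum]

lemma dg_four {U : Finset μ} (hU : U.card = 4) : dg U = ∑ u ∈ U, PP (ind (U.erase u)) := by
  ext i j
  simp only [dg_apply, Matrix.sum_apply, PP, ind, mem_erase]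
  by_cases hi : i ∈ U
  · by_cases hj : j ∈ U
    · have : ∀ u ∈ U, ((if i ≠ u ∧ i ∈ U then (1 : ZMod 2) else 0) *
          if j ≠ u ∧ j ∈ U then 1 else 0) = if u ∈ (U.erase i).erase j then 1 else 0 := by
        intro u hu
        by_cases h1 : i = u <;> by_cases h2 : j = u <;> simp [h1, h2, hi, hj, hu, eq_comm]
      rw [sum_congr rfl this, sum_ite_mem, sum_const, nsmul_eq_mul, mul_one,
        inter_eq_right.mpr ((erase_subset _ _).trans (erase_subset _ _))]
      by_cases h : i = j
      · subst h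
        rw [erase_idem, card_erase_of_mem hi, hU]
        simp only [hi, and_self, if_true]
        decide
      · rw [card_erase_of_mem (mem_erase.mpr ⟨Ne.symm h, hj⟩), card_erase_of_mem hi, hU]
        simp only [h, false_and, if_false]
        decide
    · have : ¬ (i = j ∧ i ∈ U) := fun h => hj (h.1 ▸ h.2)
      simp [hj, this]
  · simp [hi]

lemma dg_half {S : Finset μ} (hS : S.card = 3) {u : μ} (hu : u ∉ S) :
    dg (insert u S) + PP (ind S) = ∑ x ∈ S, PP (ind ((insert u S).erase x)) := by
  rw [dg_four (by rw [card_insert_of_notMem hu, hS]), sum_insert hu, erase_insert hu,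
    add_right_comm, mat_add_self, zero_add]

end

/-- three-element subsets of a thirteen-element set -/
def Tr := {T : Finset (Fin 13) // T.card = 3}

instance : Finite Tr := inferInstanceAs (Finite {T : Finset (Fin 13) // T.card = 3})

noncomputable instance : Fintype Tr := Fintype.ofFinite _

noncomputable instance : DecidableEq Tr := Classical.decEq _

def PT (T : Tr) : Matrix (Fin 13) (Fin 13) (ZMod 2) := PP (ind T.1)

def ev (S T : Tr) : Prop := (S.1 ∩ T.1).card = 0 ∨ (S.1 ∩ T.1).card = 2

instance (S T : Tr) : Decidable (ev S T) := by unfold ev; infer_instance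

lemma ev_symm {S T : Tr} (h : ev S T) : ev T S := by unfold ev at *; rwa [inter_comm]

lemma card_Tr : Fintype.card Tr = 286 := by
  have h1 : Fintype.card Tr = Fintype.card {T : Finset (Fin 13) // T.card = 3} :=
    @Fintype.card_congr Tr {T : Finset (Fin 13) // T.card = 3} _ _ (Equiv.refl _)
  rw [h1, Fintype.card_finset_len]
  decide +kernel

lemma exists_notMem_of_card {U : Finset (Fin 13)} (h : U.card < 13) : ∃ u, u ∉ U := by
  by_contra hc
  push Not at hc
  have : U = univ := eq_univ_iff_forall.mpr hc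
  rw [this] at h
  simp at h

lemma rk_PT (T : Tr) : Rk (PT T) 1 := Rk.pp _

lemma rk_Q (T : Tr) : Rk (1 + PT T) 12 := by
  obtain ⟨u, hu⟩ := exists_notMem_of_card (U := T.1) (by rw [T.2]; norm_num)
  rw [dg_split (insert u T.1), add_assoc, PT, dg_half T.2 hu]
  refine ((rk_dg _).add (Rk.sum _ _)).mono ?_
  rw [card_compl, card_insert_of_notMem hu, T.2]
  simp

lemma rk_two {S T : Tr} (h : ev S T) : Rk (1 + PT S + PT T) 11 := by
  have hS := S.2
  have hT := T.2
  have hu := card_union_add_card_inter S.1 T.1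
  rcases h with h | h
  · have hd : Disjoint S.1 T.1 := disjoint_iff_inter_eq_empty.mpr (card_eq_zero.mp h)
    obtain ⟨u, hu1⟩ := exists_notMem_of_card (U := S.1 ∪ T.1) (by omega)
    obtain ⟨u', hu2⟩ := exists_notMem_of_card (U := insert u (S.1 ∪ T.1))
      (by rw [card_insert_of_notMem hu1]; omega)
    simp only [mem_insert, mem_union, not_or] at hu1 hu2
    have hdis : Disjoint (insert u S.1) (insert u' T.1) := by
      simp only [disjoint_insert_left, disjoint_insert_right, mem_insert, not_or]
      exact ⟨⟨hu2.1, hu2.2.1⟩, hu1.2, hd⟩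
    have e : 1 + PT S + PT T = dg (insert u S.1 ∪ insert u' T.1)ᶜ +
        (dg (insert u S.1) + PP (ind S.1)) + (dg (insert u' T.1) + PP (ind T.1)) := by
      rw [dg_split (insert u S.1 ∪ insert u' T.1), dg, dg, sum_union hdis]
      simp only [PT, dg]
      abel
    rw [e, dg_half hS hu1.1, dg_half hT hu2.2.2]
    refine (((rk_dg _).add (Rk.sum _ _)).add (Rk.sum _ _)).mono ?_
    rw [card_compl, card_union_of_disjoint hdis, card_insert_of_notMem hu1.1,
      card_insert_of_notMem hu2.2.2, hS, hT]
    simp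
  · have h1 : (T.1 \ S.1).card = 1 := by
      have := card_sdiff_add_card_inter T.1 S.1
      rw [inter_comm] at this
      omega
    have h2 : (S.1 \ T.1).card = 1 := by
      have := card_sdiff_add_card_inter S.1 T.1
      omega
    obtain ⟨u, hu1⟩ := card_eq_one.mp h1
    obtain ⟨x, hx1⟩ := card_eq_one.mp h2
    have hu' : u ∈ T.1 \ S.1 := by rw [hu1]; exact mem_singleton_self _
    have hx' : x ∈ S.1 \ T.1 := by rw [hx1]; exact mem_singleton_self _
    rw [mem_sdiff] at hu' hx'
    have eT : (insert u S.1).erase x = T.1 := by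
      ext y
      have a1 : y ∈ T.1 \ S.1 ↔ y = u := by rw [hu1, mem_singleton]
      have a2 : y ∈ S.1 \ T.1 ↔ y = x := by rw [hx1, mem_singleton]
      simp only [mem_sdiff] at a1 a2
      simp only [mem_erase, mem_insert]
      constructor
      · rintro ⟨b1, b2 | b2⟩
        · exact b2 ▸ hu'.1
        · by_contra b3; exact b1 (a2.mp ⟨b2, b3⟩)
      · intro b1
        refine ⟨fun b2 => hx'.2 (b2 ▸ b1), ?_⟩
        by_cases b3 : y ∈ S.1
        · exact Or.inr b3
        · exact Or.inl (a1.mp ⟨b1, b3⟩)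
    have e : 1 + PT S + PT T = dg (insert u S.1)ᶜ +
        ∑ y ∈ S.1.erase x, PP (ind ((insert u S.1).erase y)) := by
      rw [dg_split (insert u S.1), add_assoc (dg _), PT, dg_half hS hu'.2,
        ← add_sum_erase _ _ hx'.1, eT, PT, add_assoc, add_right_comm (PP _), mat_add_self, zero_add]
    rw [e]
    refine ((rk_dg _).add (Rk.sum _ _)).mono ?_
    rw [card_compl, card_insert_of_notMem hu'.2, card_erase_of_mem hx'.1, hS]
    simp

section move
variable {μ : Type} [Fintype μ] [DecidableEq μ] {β : Type} [Fintype β] [DecidableEq β]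
variable {V : Type} [AddCommGroup V] [Module ℂ V]

lemma move_aux {τ : ℝ} (hτ : 0 ≤ τ) (hC : Cost (Cpow β) (τ * 2 ^ Fintype.card β))
    {D : Matrix μ μ (ZMod 2)} {d : ℕ} (h : Rk D d) (M : Matrix μ μ (ZMod 2))
    (z : (β × μ → ZMod 2) → V) :
    RR (Av β M z) (d * τ * Fintype.card (β × μ → ZMod 2)) (Av β (D + M) z) := by
  induction h with
  | zero => rw [zero_add]; exact (RR.done subset_rfl).mono (by positivity)
  | @step D d w _ ih =>
    rw [add_assoc, Av_add]
    refine (ih.bind fun S' _ h2 => (layer β hτ hC w _).left h2).mono (le_of_eq ?_)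
    push_cast; ring

end move

end Vale.Agent.P344
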