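import Mathlib

/-!
An abstract cost calculus for linear straight-line programs.
-/

namespace Vale.Agent.P344

open Finset

section reach
variable {V : Type} [AddCommGroup V] [Module ℂ V]

/-- one gate applied to available values (zero is always available) -/
def IsGate (S : Set V) (g : V) : Prop :=
  (∃ u v, (u ∈ S ∨ u = 0) ∧ (v ∈ S ∨ v = 0) ∧ (g = u + v ∨ g = u - v)) ∨
  (∃ (c : ℂ) (u : V), (u ∈ S ∨ u = 0) ∧ g = c • u)

/-- starting from the values `S`, `k` gates make all values of `T` available -/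
inductive Reach : Set V → ℕ → Set V → Prop
  | done {S T : Set V} : (∀ t ∈ T, t ∈ S ∨ t = 0) → Reach S 0 T
  | step {S T : Set V} {k : ℕ} (g : V) : IsGate S g → Reach (insert g S) k T → Reach S (k + 1) T

lemma IsGate.mono {S S' : Set V} {g : V} (h : IsGate S g) (hs : ∀ u ∈ S, u ∈ S' ∨ u = 0) :
    IsGate S' g := by
  rcases h with ⟨u, v, hu, hv, e⟩ | ⟨c, u, hu, e⟩
  · exact Or.inl ⟨u, v, hu.elim (hs u) Or.inr, hv.elim (hs v) Or.inr, e⟩
  · exact Or.inr ⟨c, u, hu.elim (hs u) Or.inr, e⟩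

lemma Reach.mono_left {S T : Set V} {k : ℕ} (h : Reach S k T) :
    ∀ S' : Set V, (∀ u ∈ S, u ∈ S' ∨ u = 0) → Reach S' k T := by
  induction h with
  | done h => exact fun S' hs => Reach.done fun t ht => (h t ht).elim (hs t) Or.inr
  | step g hg _ ih =>
    intro S' hs
    refine Reach.step g (hg.mono hs) (ih _ ?_)
    rintro u (rfl | hu)
    · exact Or.inl (Set.mem_insert _ _)
    · exact (hs u hu).imp_left (Set.mem_insert_of_mem _)

lemma Reach.trans {S T U : Set V} {k k' : ℕ} (h : Reach S k T) (h' : Reach (S ∪ T) k' U) :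
    Reach S (k + k') U := by
  induction h with
  | done h =>
    rw [zero_add]
    exact h'.mono_left _ (by
      rintro u (hu | hu)
      · exact Or.inl hu
      · exact h u hu)
  | @step S T k g hg _ ih =>
    rw [add_right_comm]
    refine Reach.step g hg (ih (h'.mono_left _ ?_))
    rintro u (hu | hu)
    · exact Or.inl (Or.inl (Set.mem_insert_of_mem _ hu))
    · exact Or.inl (Or.inr hu)

/-- real-valued cost bound -/
def RR (S : Set V) (x : ℝ) (T : Set V) : Prop := ∃ k : ℕ, (k : ℝ) ≤ x ∧ Reach S k T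

lemma RR.done {S T : Set V} (h : T ⊆ S) : RR S 0 T :=
  ⟨0, by simp, Reach.done fun t ht => Or.inl (h ht)⟩

lemma RR.done' {S T : Set V} (h : ∀ t ∈ T, t ∈ S ∨ t = 0) : RR S 0 T :=
  ⟨0, by simp, Reach.done h⟩

lemma RR.mono {S T : Set V} {x y : ℝ} (h : RR S x T) (hxy : x ≤ y) : RR S y T := by
  obtain ⟨k, hk, h⟩ := h
  exact ⟨k, hk.trans hxy, h⟩

lemma RR.left {S S' T : Set V} {x : ℝ} (h : RR S x T) (hs : S ⊆ S') : RR S' x T := by
  obtain ⟨k, hk, h⟩ := h
  exact ⟨k, hk, h.mono_left _ fun u hu => Or.inl (hs hu)⟩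

lemma RR.left' {S S' T : Set V} {x : ℝ} (h : RR S x T) (hs : ∀ u ∈ S, u ∈ S' ∨ u = 0) :
    RR S' x T := by
  obtain ⟨k, hk, h⟩ := h
  exact ⟨k, hk, h.mono_left _ hs⟩

lemma RR.trans {S T U : Set V} {x y : ℝ} (h : RR S x T) (h' : RR (S ∪ T) y U) :
    RR S (x + y) U := by
  obtain ⟨k, hk, h⟩ := h
  obtain ⟨k', hk', h'⟩ := h'
  exact ⟨k + k', by push_cast; linarith, h.trans h'⟩

lemma RR.bind {S T U : Set V} {x y : ℝ} (h : RR S x T)
    (h' : ∀ S', S ⊆ S' → T ⊆ S' → RR S' y U) : RR S (x + y) U :=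
  h.trans (h' _ Set.subset_union_left Set.subset_union_right)

lemma RR.right {S T T' : Set V} {x : ℝ} (h : RR S x T) (ht : T' ⊆ T) : RR S x T' := by
  have := h.bind (U := T') (y := 0) fun S' _ h2 => RR.done (ht.trans h2)
  rwa [add_zero] at this

lemma RR.union {S T U : Set V} {x y : ℝ} (h : RR S x T) (h' : RR S y U) :
    RR S (x + y) (T ∪ U) := by
  refine h.bind fun S' h1 h2 => ?_
  have := (h'.left h1).bind (U := T ∪ U) (y := 0) fun S'' h3 h4 =>
    RR.done (Set.union_subset (h2.trans h3) h4)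
  rwa [add_zero] at this

lemma RR.fam {ρ : Type} {S : Set V} (s : Finset ρ) (x : ρ → ℝ) (T : ρ → Set V)
    (h : ∀ i ∈ s, RR S (x i) (T i)) : RR S (∑ i ∈ s, x i) (⋃ i ∈ s, T i) := by
  classical
  induction s using Finset.induction_on with
  | empty => simpa using RR.done (Set.empty_subset S)
  | insert a s ha ih =>
    rw [sum_insert ha, Finset.set_biUnion_insert]
    exact (h a (mem_insert_self _ _)).union (ih fun i hi => h i (mem_insert_of_mem hi))

lemma RR.gate {S : Set V} {g : V} (h : IsGate S g) : RR S 1 {g} :=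
  ⟨1, by simp, Reach.step g h (Reach.done (by rintro t rfl; simp))⟩

lemma RR.range {ρ : Type} [Fintype ρ] {S : Set V} {x : ℝ} (f : ρ → V)
    (h : ∀ i, RR S x {f i}) : RR S (Fintype.card ρ * x) (Set.range f) := by
  have := RR.fam univ (fun _ => x) (fun i => {f i}) (fun i _ => h i)
  rw [sum_const, card_univ, nsmul_eq_mul] at this
  refine this.right ?_
  rintro _ ⟨i, rfl⟩
  simp

lemma RR.lincomb {ρ : Type} {S : Set V} (s : Finset ρ) (c : ρ → ℂ) (v : ρ → V)
    (h : ∀ i ∈ s, v i ∈ S) : RR S (2 * s.card) {∑ i ∈ s, c i • v i} := by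
  classical
  induction s using Finset.induction_on with
  | empty => simpa using RR.done' (S := S) (T := {0}) (by simp)
  | insert a s ha ih =>
    rw [sum_insert ha, card_insert_of_notMem ha]
    have h1 := ih fun i hi => h i (mem_insert_of_mem hi)
    have h2 : RR S 1 {c a • v a} :=
      RR.gate (Or.inr ⟨c a, v a, Or.inl (h a (mem_insert_self _ _)), rfl⟩)
    have h3 := (h1.union h2).bind (y := 1) (U := {c a • v a + ∑ i ∈ s, c i • v i})
      fun S' _ h5 => RR.gate (Or.inl ⟨_, _, Or.inl (h5 (by simp)), Or.inl (h5 (by simp)),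
        Or.inl rfl⟩)
    refine h3.mono (le_of_eq ?_)
    push_cast; ring

end reach

section app
variable {V : Type} [AddCommGroup V] [Module ℂ V]

/-- a matrix applied to a family of module elements -/
def app {ι κ : Type} [Fintype ι] (M : Matrix κ ι ℂ) (v : ι → V) : κ → V :=
  fun r => ∑ i, M r i • v i

lemma app_mul {ι κ μ : Type} [Fintype ι] [Fintype κ] (M : Matrix μ κ ℂ) (N : Matrix κ ι ℂ)
    (v : ι → V) : app (M * N) v = app M (app N v) := by
  funext r
  simp only [app, Matrix.mul_apply, sum_smul, smul_sum, smul_smul]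
  exact sum_comm

lemma app_add {ι κ : Type} [Fintype ι] (M : Matrix κ ι ℂ) (v w : ι → V) :
    app M (v + w) = app M v + app M w := by
  funext r; simp [app, sum_add_distrib]

lemma app_sub {ι κ : Type} [Fintype ι] (M : Matrix κ ι ℂ) (v w : ι → V) :
    app M (v - w) = app M v - app M w := by
  funext r; simp [app, smul_sub, sum_sub_distrib]

lemma app_smul {ι κ : Type} [Fintype ι] (M : Matrix κ ι ℂ) (c : ℂ) (v : ι → V) :
    app M (c • v) = c • app M v := by
  funext r; simp [app, smul_sum, smul_comm c]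

lemma app_sum {ι κ ρ : Type} [Fintype ι] (M : Matrix κ ι ℂ) (s : Finset ρ) (c : ρ → ℂ)
    (v : ρ → ι → V) (r : κ) : app M (∑ j ∈ s, c j • v j) r = ∑ j ∈ s, c j • app M (v j) r := by
  simp only [app, Finset.sum_apply, Pi.smul_apply, smul_sum]
  rw [sum_comm]
  simp only [smul_comm (M r _)]

end app

/-- the matrix `M` can be applied to any family with at most `x` gates -/
def Cost {ι κ : Type} [Fintype ι] (M : Matrix κ ι ℂ) (x : ℝ) : Prop :=
  ∀ (V : Type) [AddCommGroup V] [Module ℂ V] (v : ι → V), RR (Set.range v) x (Set.range (app M v))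

lemma Cost.mono {ι κ : Type} [Fintype ι] {M : Matrix κ ι ℂ} {x y : ℝ} (h : Cost M x)
    (hxy : x ≤ y) : Cost M y := fun V _ _ v => (h V v).mono hxy

lemma Cost.mul {ι κ μ : Type} [Fintype ι] [Fintype κ] {M : Matrix μ κ ℂ} {N : Matrix κ ι ℂ}
    {x y : ℝ} (hM : Cost M x) (hN : Cost N y) : Cost (M * N) (x + y) := by
  intro V _ _ v
  rw [app_mul, add_comm]
  exact (hN V v).bind fun S' _ h2 => (hM V _).left h2

lemma Cost.dense {ι κ : Type} [Fintype ι] [Fintype κ] (M : Matrix κ ι ℂ) :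
    Cost M (Fintype.card κ * (2 * Fintype.card ι)) := by
  intro V _ _ v
  exact RR.range _ fun r => RR.lincomb univ (M r) v fun i _ => Set.mem_range_self i

lemma Cost.reindex {ι κ ι' κ' : Type} [Fintype ι] [Fintype ι'] {M : Matrix κ ι ℂ} {x : ℝ}
    (h : Cost M x) (f : κ' → κ) (e : ι' ≃ ι) : Cost (M.submatrix f e) x := by
  intro V _ _ v
  refine ((h V (v ∘ e.symm)).left ?_).right ?_
  · rintro _ ⟨i, rfl⟩; exact ⟨_, rfl⟩
  · rintro _ ⟨r, rfl⟩
    refine ⟨f r, ?_⟩
    simp only [app, Matrix.submatrix_apply, Function.comp]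
    rw [← e.sum_comp]; simp

end Vale.Agent.P344
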