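import Vale.Agent.P344.Depth

/-!
Registers, shears and borrowed workspace.
-/

namespace Vale.Agent.P344

open Finset Matrix Complex

section inv
variable {ι κ : Type} [Fintype ι] [DecidableEq ι]

lemma Mono.inv {M N : Matrix ι ι ℂ} (h : Mono M) (e : M * N = 1) : Mono N := by
  obtain ⟨π, hπ⟩ := h
  have key : ∀ i j, M i (π i) * N (π i) j = if i = j then 1 else 0 := by
    intro i j
    rw [← one_apply, ← e, Matrix.mul_apply,
      sum_eq_single (π i) (fun k _ hk => by rw [hπ i k hk, zero_mul]) (by simp)]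
  have h1 : ∀ i, M i (π i) ≠ 0 := fun i h => by simpa [h] using key i i
  have h2 : ∀ i, N (π i) i ≠ 0 := fun i h => by simpa [h] using key i i
  have inj : Function.Injective π := by
    intro i i' hi
    by_contra hne
    have := key i i'
    rw [if_neg hne, hi] at this
    rcases mul_eq_zero.mp this with h | h
    · exact h1 i (hi ▸ h)
    · exact h2 i' h
  let E := Equiv.ofBijective π (Finite.injective_iff_bijective.mp inj)
  refine ⟨E.symm, fun k j hj => ?_⟩
  obtain ⟨i, rfl⟩ := E.surjective k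
  rw [Equiv.symm_apply_apply] at hj
  have := key i j
  rw [if_neg (Ne.symm hj)] at this
  exact (mul_eq_zero.mp this).resolve_left (h1 i)

omit [Fintype ι] in
lemma Mono.perm (f : ι → ι) : Mono ((1 : Matrix ι ι ℂ).submatrix f id) :=
  ⟨f, fun i j h => by simp [one_apply, Ne.symm h]⟩

lemma Lam_inv {σ : ι → ι} (h : Function.Involutive σ) :
    Lam σ * ((1 : Matrix ι ι ℂ).submatrix σ id * Lam σ) = 1 := by
  set P := (1 : Matrix ι ι ℂ).submatrix σ id with hP
  have e : Lam σ = cc 0 • (1 : Matrix ι ι ℂ) + cc 1 • P := by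
    ext i j; simp [Lam_apply, hP, one_apply]
  have e2 : P * P = 1 := by
    ext i j
    rw [Matrix.mul_apply, sum_eq_single (σ i) (fun k _ hk => by simp [hP, one_apply, Ne.symm hk])
      (by simp)]
    simp [hP, h i, one_apply]
  have e3 : cc 0 * cc 0 + cc 1 * cc 1 = 0 := by
    simp only [cc]; simp; linear_combination (1 / 2 : ℂ) * I_sq
  have e4 : cc 0 * cc 1 + cc 1 * cc 0 = 1 := by
    simp only [cc]; simp; linear_combination (-1 / 2 : ℂ) * I_sq
  rw [e]
  simp only [Matrix.add_mul, Matrix.mul_add, Matrix.smul_mul, Matrix.mul_smul, Matrix.one_mul,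
    Matrix.mul_one, e2, smul_add, smul_smul]
  calc _ = (cc 0 * cc 0 + cc 1 * cc 1) • P + (cc 0 * cc 1 + cc 1 * cc 0) • (1 : Matrix ι ι ℂ) := by
        module
    _ = 1 := by rw [e3, e4]; simp

lemma Dep.inv {D : ℕ} {M N : Matrix ι ι ℂ} (h : Dep D M) (e : M * N = 1) : Dep D N := by
  induction h generalizing N with
  | base h => exact Dep.base (h.inv e)
  | @step D M A σ _ b c ih =>
    have h1 : A * (Lam σ * M * N) = 1 := by rw [← e]; simp only [Matrix.mul_assoc]
    have h2 : M * (N * A * Lam σ) = 1 := by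
      have : (A * Lam σ) * (M * N) = 1 := by rw [← e]; simp only [Matrix.mul_assoc]
      rw [← mul_eq_one_comm.mp this]; simp only [Matrix.mul_assoc]
    have h3 := ((ih h2).mul ((Dep.lam b).mono_left (Mono.perm σ))).mono_right (c.inv h1)
    have h4 : N * A * Lam σ * ((1 : Matrix ι ι ℂ).submatrix σ id * Lam σ) * (Lam σ * M * N) = N := by
      rw [Matrix.mul_assoc (N * A), Lam_inv b, Matrix.mul_one, Matrix.mul_assoc N, h1,
        Matrix.mul_one]
    rwa [h4] at h3

lemma Dep.reindex2 [Fintype κ] {D : ℕ} {M : Matrix ι ι ℂ} (h : Dep D M) (e e' : κ ≃ ι) :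
    Dep D (M.submatrix e e') := by
  have : M.submatrix e e' = M.submatrix e e * (1 : Matrix ι ι ℂ).submatrix e e' := by
    rw [submatrix_mul_equiv, Matrix.mul_one]
  rw [this]
  refine (h.reindex e).mono_right ⟨fun i => e'.symm (e i), fun i j hj => ?_⟩
  rw [submatrix_apply, one_apply_ne]
  intro h; apply hj; simp [h]

lemma Dep.comm {D D' : ℕ} {a b : Matrix ι ι ℂ} (ha : Dep D (1 + a)) (hb : Dep D' (1 + b))
    (h1 : a * a = 0) (h2 : b * b = 0) (h3 : b * a = 0) : Dep (2 * D + 2 * D') (1 + a * b) := by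
  have ha' : Dep D (1 - a) := ha.inv (by noncomm_ring [h1])
  have hb' : Dep D' (1 - b) := hb.inv (by noncomm_ring [h2])
  have := ((hb'.mul ha).mul hb).mul ha'
  have e : (1 - b) * (1 + a) * (1 + b) * (1 - a) = 1 + a * b := by
    have h4 : ∀ c : Matrix ι ι ℂ, b * (a * c) = 0 := fun c => by rw [← mul_assoc, h3, zero_mul]
    noncomm_ring [h1, h2, h3, h4]
  rw [e] at this
  exact this.le (by omega)

lemma Dep.cost {D : ℕ} {M : Matrix ι ι ℂ} (h : Dep D M) :
    Cost M ((1 + 5 * D) * Fintype.card ι) := by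
  induction h with
  | base h => simpa using h.cost
  | @step D M A σ _ b c ih =>
    have : Cost (Lam σ) (4 * Fintype.card ι) := by
      intro V _ _ v
      have := RR.range (S := Set.range v) (x := 4) (app (Lam σ) v) fun r => by
        have h := RR.lincomb (S := Set.range v) (univ : Finset Bool)
          (fun b => if b then cc 0 else cc 1) (fun b => if b then v r else v (σ r))
          (by rintro (_ | _) _ <;> simp)
        have e : app (Lam σ) v r = ∑ b : Bool, (if b then cc 0 else cc 1) •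
            (if b then v r else v (σ r)) := by
          simp [app, Lam_apply, add_smul, sum_add_distrib, ite_smul]
        rw [e]
        refine h.mono (by simp; norm_num)
      rwa [mul_comm] at this
    refine ((c.cost.mul this).mul ih).mono (le_of_eq ?_)
    push_cast; ring

end inv

section two

lemma dep_H : Dep 1 (!![1, 1; 1, -1] : Matrix (Fin 2) (Fin 2) ℂ) := by
  have h := ((Dep.lam (σ := (![1, 0] : Fin 2 → Fin 2)) (by intro i; fin_cases i <;> rfl)).mono_left
    (Mono.diagonal ![1 - I, 1 + I])).mono_right (Mono.diagonal ![1, I])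
  convert h using 1
  ext i j
  rw [mul_diagonal, diagonal_mul, Lam_apply]
  fin_cases i <;> fin_cases j <;> simp [cc]
  · linear_combination (1 / 2 : ℂ) * I_sq
  · linear_combination (1 - I / 2 : ℂ) * I_sq
  · linear_combination (1 / 2 : ℂ) * I_sq
  · linear_combination (-1 - I / 2 : ℂ) * I_sq

lemma diag2 (a b : ℂ) : diagonal ![a, b] = !![a, 0; 0, b] := by
  ext i j; fin_cases i <;> fin_cases j <;> simp

lemma dep_shear2 (t : ℂ) : Dep 3 (!![1, t; 0, 1] : Matrix (Fin 2) (Fin 2) ℂ) := by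
  by_cases ht : t = 0
  · rw [ht, ← one_fin_two]; exact Mono.one.dep 3
  have h := ((((dep_H.mono_left (Mono.diagonal ![1 / 8, 5 / (24 * t)])).mono_right
    (Mono.diagonal ![2, 1])).mul (dep_H.mono_right (Mono.diagonal ![3, -1]))).mul
    (dep_H.mono_right (Mono.diagonal ![1, 4 * t / 5])))
  convert h using 1
  simp only [diag2, mul_fin_two]
  ext i j
  fin_cases i <;> fin_cases j <;> simp <;> field_simp <;> ring

lemma dep_shear_diag {X : Type} [Fintype X] [DecidableEq X] (t : X → ℂ) :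
    Dep 3 (fromBlocks 1 (diagonal t) 0 1 : Matrix (X ⊕ X) (X ⊕ X) ℂ) := by
  let e : X ⊕ X ≃ Fin 2 × X :=
    ⟨Sum.elim (fun x => (0, x)) (fun x => (1, x)), fun p => if p.1 = 0 then .inl p.2 else .inr p.2,
      by rintro (x | x) <;> simp, by rintro ⟨b, x⟩; fin_cases b <;> simp⟩
  have h := (Dep.blockDiag fun x => dep_shear2 (t x)).reindex e
  convert h using 1
  ext (i | i) (j | j) <;> simp [e, blockDiagonal_apply, one_apply, diagonal_apply]

end two

section reg
variable {Z X Y W : Type} [DecidableEq Z]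

/-- the inclusion matrix of a register -/
def J (r : X → Z) : Matrix Z X ℂ := fun z x => if z = r x then 1 else 0

lemma J_elim (x : X → Z) (y : Y → Z) : J (Sum.elim x y) = fromCols (J x) (J y) := by
  ext z (i | i) <;> rfl

lemma J_mul_J [Fintype W] [DecidableEq W] (w : W → Z) (φ : X → W) : J w * J φ = J (w ∘ φ) := by
  ext z x; simp [J, Matrix.mul_apply]

lemma mul_J [Fintype Z] (M : Matrix Y Z ℂ) (r : X → Z) : M * J r = M.submatrix id r := by
  ext z x; simp [J, Matrix.mul_apply]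

lemma Jt_mul [Fintype Z] (M : Matrix Z Y ℂ) (r : X → Z) : (J r)ᵀ * M = M.submatrix r id := by
  ext z x; simp [J, Matrix.mul_apply]

lemma Jt_J [Fintype Z] [DecidableEq X] {r : X → Z} (h : Function.Injective r) :
    (J r)ᵀ * J r = 1 := by
  rw [Jt_mul]; ext x x'; simp [J, one_apply, h.eq_iff]

lemma Jt_J_disj [Fintype Z] {r : X → Z} {r' : Y → Z} (h : ∀ x y, r x ≠ r' y) :
    (J r)ᵀ * J r' = 0 := by
  rw [Jt_mul]; ext x x'; simp [J, h]

variable [Fintype X] [Fintype Y] [Fintype Z]

/-- a matrix acting on one register, the identity elsewhere -/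
def on [DecidableEq X] (r : X → Z) (U : Matrix X X ℂ) : Matrix Z Z ℂ :=
  1 + J r * (U - 1) * (J r)ᵀ

omit [Fintype Z] in
lemma JTJ_left {r : X → Z} {r' : Y → Z} (T : Matrix X Y ℂ) {z : Z} (h : z ∉ Set.range r) (z' : Z) :
    (J r * T * (J r')ᵀ) z z' = 0 := by
  have : ∀ x, z ≠ r x := fun x e => h ⟨x, e.symm⟩
  simp [Matrix.mul_apply, J, this]

omit [Fintype Z] in
lemma JTJ_right {r : X → Z} {r' : Y → Z} (T : Matrix X Y ℂ) (z : Z) {z' : Z}
    (h : z' ∉ Set.range r') : (J r * T * (J r')ᵀ) z z' = 0 := by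
  have : ∀ x, z' ≠ r' x := fun x e => h ⟨x, e.symm⟩
  simp [Matrix.mul_apply, J, this]

omit [Fintype Z] in
lemma JTJ_apply {r : X → Z} {r' : Y → Z} (h : Function.Injective r) (h' : Function.Injective r')
    (T : Matrix X Y ℂ) (x : X) (y : Y) : (J r * T * (J r')ᵀ) (r x) (r' y) = T x y := by
  classical
  simp [Matrix.mul_apply, J, h.eq_iff, h'.eq_iff]

variable [DecidableEq X] [DecidableEq Y]

lemma Dep.on {D : ℕ} {r : X → Z} (hr : Function.Injective r) {U : Matrix X X ℂ} (h : Dep D U) :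
    Dep D (on r U) := by
  classical
  let e : X ⊕ ((Set.range r)ᶜ : Set Z) ≃ Z :=
    ((Equiv.ofInjective r hr).sumCongr (Equiv.refl _)).trans (Equiv.Set.sumCompl _)
  have h2 := (h.sum (Mono.one.dep D : Dep D (1 : Matrix ((Set.range r)ᶜ : Set Z) _ ℂ))).reindex
    e.symm
  convert h2 using 1
  have : (Vale.Agent.P344.on r U).submatrix e e = fromBlocks U 0 0 1 := by
    ext (x | z) (x' | z')
    · simp [e, Vale.Agent.P344.on, JTJ_apply hr hr, one_apply, hr.eq_iff]
    · have : r x ≠ z' := fun h => z'.2 ⟨x, h⟩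
      simp [e, Vale.Agent.P344.on, JTJ_right _ _ z'.2, one_apply, this]
    · have : z.1 ≠ r x' := fun h => z.2 ⟨x', h.symm⟩
      simp [e, Vale.Agent.P344.on, JTJ_left _ z.2, one_apply, this]
    · simp [e, Vale.Agent.P344.on, JTJ_left _ z.2, one_apply, Subtype.ext_iff]
  rw [← this]; simp

lemma on_mul {r : X → Z} (hr : Function.Injective r) (U U' : Matrix X X ℂ) :
    on r (U * U') = on r U * on r U' := by
  have h : ∀ M : Matrix X Z ℂ, (J r)ᵀ * (J r * M) = M := fun M => by
    rw [← Matrix.mul_assoc, Jt_J hr, Matrix.one_mul]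
  simp only [on, Matrix.add_mul, Matrix.mul_add, Matrix.mul_sub, Matrix.sub_mul, Matrix.mul_assoc,
    Matrix.one_mul, Matrix.mul_one, h]
  abel

omit [Fintype Z] in
lemma on_one (r : X → Z) : on r 1 = 1 := by simp [on]

omit [Fintype Z] in
lemma on_up (x : X → Z) (y : Y → Z) (T : Matrix X Y ℂ) :
    on (Sum.elim x y) (fromBlocks 1 T 0 1) = 1 + J x * T * (J y)ᵀ := by
  have : fromBlocks 1 T 0 1 - 1 = (fromBlocks 0 T 0 0 : Matrix (X ⊕ Y) (X ⊕ Y) ℂ) := by
    ext (i | i) (j | j) <;> simp [one_apply]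
  simp [on, J_elim, this, transpose_fromCols, fromCols_mul_fromBlocks, fromCols_mul_fromRows]

omit [Fintype Z] in
lemma on_low (x : X → Z) (y : Y → Z) (T : Matrix Y X ℂ) :
    on (Sum.elim x y) (fromBlocks 1 0 T 1) = 1 + J y * T * (J x)ᵀ := by
  have : fromBlocks 1 0 T 1 - 1 = (fromBlocks 0 0 T 0 : Matrix (X ⊕ Y) (X ⊕ Y) ℂ) := by
    ext (i | i) (j | j) <;> simp [one_apply]
  simp [on, J_elim, this, transpose_fromCols, fromCols_mul_fromBlocks, fromCols_mul_fromRows]

/-- the shear adding `T` applied to register `x` into register `y` has depth `D` -/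
def Sh (D : ℕ) (y : Y → Z) (x : X → Z) (T : Matrix Y X ℂ) : Prop := Dep D (1 + J y * T * (J x)ᵀ)

lemma Sh.diag {y x : X → Z} (hy : Function.Injective y) (hx : Function.Injective x)
    (h : ∀ a b, y a ≠ x b) (t : X → ℂ) : Sh 3 y x (diagonal t) := by
  unfold Sh
  rw [← on_up]
  exact (dep_shear_diag t).on (hy.sumElim hx h)

omit [DecidableEq X] [DecidableEq Y] in
lemma Sh.comm [Fintype W] [DecidableEq W] {D D' : ℕ} {y : Y → Z} {w : W → Z} {x : X → Z}
    {T : Matrix Y W ℂ} {T' : Matrix W X ℂ} (h : Sh D y w T) (h' : Sh D' w x T')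
    (hw : Function.Injective w) (h1 : ∀ a b, w a ≠ y b) (h2 : ∀ a b, x a ≠ w b)
    (h3 : ∀ a b, x a ≠ y b) : Sh (2 * D + 2 * D') y x (T * T') := by
  have := Dep.comm h h'
    (by simp only [Matrix.mul_assoc]; rw [← Matrix.mul_assoc (J w)ᵀ, Jt_J_disj h1]; simp)
    (by simp only [Matrix.mul_assoc]; rw [← Matrix.mul_assoc (J x)ᵀ, Jt_J_disj h2]; simp)
    (by simp only [Matrix.mul_assoc]; rw [← Matrix.mul_assoc (J x)ᵀ, Jt_J_disj h3]; simp)
  unfold Sh
  convert this using 2
  simp only [Matrix.mul_assoc]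
  rw [← Matrix.mul_assoc (J w)ᵀ, Jt_J hw, Matrix.one_mul]

omit [DecidableEq X] in
lemma Sh.conj_left {D D' : ℕ} {y : Y → Z} {x : X → Z} {T : Matrix Y X ℂ} (h : Sh D y x T)
    (hy : Function.Injective y) (h3 : ∀ a b, x a ≠ y b) {U U' : Matrix Y Y ℂ} (hU : Dep D' U)
    (e : U * U' = 1) : Sh (D + 2 * D') y x (U * T) := by
  have := ((hU.on hy).mul h).mul ((hU.inv e).on hy)
  unfold Sh
  have a1 : on y U * J y = J y * U := by
    simp only [on, Matrix.add_mul, Matrix.mul_assoc, Jt_J hy, Matrix.one_mul, Matrix.mul_one,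
      Matrix.mul_sub]
    abel
  have a2 : (J x)ᵀ * on y U' = (J x)ᵀ := by
    simp only [on, Matrix.mul_add, ← Matrix.mul_assoc, Jt_J_disj h3]; simp
  have : on y U * (1 + J y * T * (J x)ᵀ) * on y U' = 1 + J y * (U * T) * (J x)ᵀ := by
    rw [Matrix.mul_add, Matrix.add_mul, Matrix.mul_one, ← on_mul hy, e, on_one,
      Matrix.mul_assoc, Matrix.mul_assoc, a2, ← Matrix.mul_assoc, ← Matrix.mul_assoc, a1]
    simp only [Matrix.mul_assoc]
  rw [← this]
  exact Dep.le (by assumption) (by omega)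

omit [DecidableEq Y] in
lemma Sh.conj_right {D D' : ℕ} {y : Y → Z} {x : X → Z} {T : Matrix Y X ℂ} (h : Sh D y x T)
    (hx : Function.Injective x) (h3 : ∀ a b, x a ≠ y b) {U U' : Matrix X X ℂ} (hU : Dep D' U)
    (e : U * U' = 1) : Sh (D + 2 * D') y x (T * U) := by
  have := (((hU.inv e).on hx).mul h).mul (hU.on hx)
  unfold Sh
  have a1 : (J x)ᵀ * on x U = U * (J x)ᵀ := by
    simp only [on, Matrix.mul_add, ← Matrix.mul_assoc, Jt_J hx, Matrix.one_mul, Matrix.mul_one,
      Matrix.sub_mul]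
    abel
  have a2 : on x U' * J y = J y := by
    simp only [on, Matrix.add_mul, Matrix.mul_assoc, Jt_J_disj h3]; simp
  have : on x U' * (1 + J y * T * (J x)ᵀ) * on x U = 1 + J y * (T * U) * (J x)ᵀ := by
    rw [Matrix.mul_add, Matrix.add_mul, Matrix.mul_one, ← on_mul hx, mul_eq_one_comm.mp e, on_one,
      Matrix.mul_assoc, Matrix.mul_assoc, a1, ← Matrix.mul_assoc, ← Matrix.mul_assoc,
      ← Matrix.mul_assoc, a2]
    simp only [Matrix.mul_assoc]
  rw [← this]
  exact Dep.le (by assumption) (by omega)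

end reg

end Vale.Agent.P344
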