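import Vale.Agent.P344.Reach

/-!
Walsh multipliers, frames attached to binary matrices, and the cost of changing frame.
-/

namespace Vale.Agent.P344

open Finset Complex

lemma z2_cases (x : ZMod 2) : x = 0 ∨ x = 1 := by revert x; decide

lemma z2_add_self (x : ZMod 2) : x + x = 0 := by revert x; decide

lemma z2_sum {M : Type} [AddCommMonoid M] (f : ZMod 2 → M) : ∑ x, f x = f 0 + f 1 := by
  have : (univ : Finset (ZMod 2)) = {0, 1} := by decide
  rw [this, sum_pair (by decide)]

noncomputable def sg (x : ZMod 2) : ℂ := if x = 0 then 1 else -1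

lemma sg_zero : sg 0 = 1 := by simp [sg]
lemma sg_one : sg 1 = -1 := by simp [sg]

lemma sg_add (x y : ZMod 2) : sg (x + y) = sg x * sg y := by
  rcases z2_cases x with rfl | rfl <;> rcases z2_cases y with rfl | rfl <;>
    simp [sg_zero, sg_one, z2_add_self]

lemma sg_sum {ρ : Type} (s : Finset ρ) (f : ρ → ZMod 2) : sg (∑ i ∈ s, f i) = ∏ i ∈ s, sg (f i) := by
  classical
  induction s using Finset.induction_on with
  | empty => simp [sg_zero]
  | insert a s ha ih => rw [sum_insert ha, prod_insert ha, sg_add, ih]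

noncomputable def cc (x : ZMod 2) : ℂ := if x = 0 then (1 + I) / 2 else (1 - I) / 2

section theta

lemma fn_add_self {J : Type} (g : J → ZMod 2) : g + g = 0 := by funext k; exact z2_add_self _

lemma fn_add_eq_zero {J : Type} {g g' : J → ZMod 2} : g + g' = 0 ↔ g = g' := by
  constructor
  · intro h
    have := congrArg (· + g') h
    simpa [add_assoc, fn_add_self] using this
  · rintro rfl; exact fn_add_self _

variable {J : Type} [Fintype J]

noncomputable def chi (v ξ : J → ZMod 2) : ℂ := ∏ k, sg (v k * ξ k)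

lemma chi_comm (v ξ : J → ZMod 2) : chi v ξ = chi ξ v := by simp [chi, mul_comm]

lemma chi_add (v w ξ : J → ZMod 2) : chi (v + w) ξ = chi v ξ * chi w ξ := by
  simp [chi, add_mul, sg_add, prod_mul_distrib]

lemma chi_zero (ξ : J → ZMod 2) : chi 0 ξ = 1 := by simp [chi, sg_zero]

variable [DecidableEq J]

lemma sum_chi (ξ : J → ZMod 2) :
    ∑ g, chi g ξ = if ξ = 0 then (2 : ℂ) ^ Fintype.card J else 0 := by
  have : ∑ g, chi g ξ = ∏ k, ∑ x : ZMod 2, sg (x * ξ k) := by
    rw [prod_univ_sum, Fintype.piFinset_univ]; rfl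
  rw [this]
  split_ifs with h
  · subst h; simp [sg_zero]
  · obtain ⟨k, hk⟩ := Function.ne_iff.mp h
    apply prod_eq_zero (mem_univ k)
    rcases z2_cases (ξ k) with h0 | h1
    · exact absurd h0 hk
    · rw [z2_sum, h1]; simp [sg_zero, sg_one]

noncomputable def Theta (m : (J → ZMod 2) → ℂ) : Matrix (J → ZMod 2) (J → ZMod 2) ℂ :=
  fun g g' => ((2 : ℂ) ^ Fintype.card J)⁻¹ * ∑ ξ, m ξ * chi (g + g') ξ

lemma Theta_mul (m m' : (J → ZMod 2) → ℂ) :
    Theta (fun ξ => m ξ * m' ξ) = Theta m * Theta m' := by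
  ext g g'
  have h2 : ((2 : ℂ) ^ Fintype.card J) ≠ 0 := pow_ne_zero _ two_ne_zero
  simp only [Theta, Matrix.mul_apply]
  have : ∀ x : J → ZMod 2, (((2 : ℂ) ^ Fintype.card J)⁻¹ * ∑ ξ, m ξ * chi (g + x) ξ) *
      (((2 : ℂ) ^ Fintype.card J)⁻¹ * ∑ η, m' η * chi (x + g') η) =
      ((2 : ℂ) ^ Fintype.card J)⁻¹ * ((2 : ℂ) ^ Fintype.card J)⁻¹ *
        ∑ ξ, ∑ η, m ξ * m' η * chi g ξ * chi g' η * chi x (ξ + η) := by
    intro x
    rw [mul_mul_mul_comm, sum_mul_sum]
    congr 1
    refine sum_congr rfl fun ξ _ => sum_congr rfl fun η _ => ?_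
    rw [chi_add, chi_add, chi_comm x (ξ + η), chi_add, chi_comm ξ x, chi_comm η x]
    ring
  simp only [this]
  rw [← mul_sum, sum_comm, mul_assoc]
  congr 1
  rw [mul_sum]
  refine sum_congr rfl fun ξ _ => ?_
  rw [sum_comm]
  simp only [← mul_sum, sum_chi, fn_add_eq_zero, mul_ite, mul_zero, sum_ite_eq, mem_univ, if_true]
  rw [chi_add]
  field_simp

lemma Theta_chi (v g g' : J → ZMod 2) : Theta (chi v) g g' = if g + v = g' then 1 else 0 := by
  have h2 : ((2 : ℂ) ^ Fintype.card J) ≠ 0 := pow_ne_zero _ two_ne_zero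
  simp only [Theta, ← chi_add]
  simp only [chi_comm (v + (g + g')), sum_chi]
  have : v + (g + g') = 0 ↔ g + v = g' := by
    rw [← fn_add_eq_zero (g := g + v)]
    constructor <;> intro h <;> rw [← h] <;> abel
  simp only [this]
  split_ifs
  · field_simp
  · simp

variable {V : Type} [AddCommGroup V] [Module ℂ V]

lemma app_Theta_sum {ρ : Type} [Fintype ρ] (c : ρ → ℂ) (u : ρ → J → ZMod 2)
    (z : (J → ZMod 2) → V) (g : J → ZMod 2) :
    app (Theta fun ξ => ∑ s, c s * chi (u s) ξ) z g = ∑ s, c s • z (g + u s) := by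
  have : ∀ g', Theta (fun ξ => ∑ s, c s * chi (u s) ξ) g g' =
      ∑ s, c s * Theta (chi (u s)) g g' := by
    intro g'
    simp only [Theta, sum_mul, mul_sum]
    rw [sum_comm]
    refine sum_congr rfl fun s _ => sum_congr rfl fun ξ _ => by ring
  simp only [app, this, Theta_chi, sum_smul]
  rw [sum_comm]
  refine sum_congr rfl fun s _ => ?_
  simp [ite_smul]

lemma app_Theta_chi (v : J → ZMod 2) (z : (J → ZMod 2) → V) (g : J → ZMod 2) :
    app (Theta (chi v)) z g = z (g + v) := by
  simp [app, Theta_chi, ite_smul]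

/-- the tensor power of the two by two matrix with entries `cc` -/
noncomputable def Cpow (J : Type) [Fintype J] : Matrix (J → ZMod 2) (J → ZMod 2) ℂ :=
  fun g g' => ∏ k, cc (g k + g' k)

lemma app_Cpow (z : (J → ZMod 2) → V) (g : J → ZMod 2) :
    app (Cpow J) z g = ∑ s : J → ZMod 2, (∏ k, cc (s k)) • z (g + s) := by
  simp only [app, Cpow]
  rw [← Equiv.sum_comp (Equiv.addLeft g)]
  refine sum_congr rfl fun s _ => ?_
  simp [← add_assoc, z2_add_self]

end theta

noncomputable def i4 (x : ZMod 4) : ℂ := I ^ x.val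

lemma i4_add (x y : ZMod 4) : i4 (x + y) = i4 x * i4 y := by
  unfold i4
  rw [← pow_add, ZMod.val_add, ← Nat.div_add_mod (x.val + y.val) 4, pow_add, pow_mul]
  simp

lemma i4_zero : i4 0 = 1 := by simp [i4]

lemma i4_sum {ρ : Type} (s : Finset ρ) (f : ρ → ZMod 4) : i4 (∑ i ∈ s, f i) = ∏ i ∈ s, i4 (f i) := by
  classical
  induction s using Finset.induction_on with
  | empty => simp [i4_zero]
  | insert a s ha ih => rw [sum_insert ha, prod_insert ha, i4_add, ih]

def lf (x : ZMod 2) : ZMod 4 := if x = 0 then 0 else 1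
def db (x : ZMod 2) : ZMod 4 := if x = 0 then 0 else 2

lemma lf_add (x y : ZMod 2) : lf (x + y) = lf x + lf y + db (x * y) := by revert x y; decide
lemma db_add (x y : ZMod 2) : db (x + y) = db x + db y := by revert x y; decide
lemma lf_add_mul (x y t : ZMod 2) :
    lf ((x + y) * t) = lf (x * t) + lf (y * t) + db (x * y * t) := by revert x y t; decide
lemma db_zero : db 0 = 0 := by decide
lemma lf_zero : lf 0 = 0 := by decide
lemma z2_sq (x y : ZMod 2) : x * x * y = x * y := by revert x y; decide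

lemma i4_db (x : ZMod 2) : i4 (db x) = sg x := by
  rcases z2_cases x with rfl | rfl
  · simp [db_zero, i4_zero, sg_zero]
  · have : (db 1).val = 2 := by decide
    simp [i4, this, sg_one]

lemma i4_lf (x : ZMod 2) : i4 (lf x) = ∑ s : ZMod 2, cc s * sg (s * x) := by
  rw [z2_sum]
  rcases z2_cases x with rfl | rfl
  · simp [lf_zero, i4_zero, sg_zero, cc]; ring
  · have : (lf 1).val = 1 := by decide
    simp [i4, this, sg_one, sg_zero, cc]; ring

lemma db_sum {ρ : Type} (s : Finset ρ) (f : ρ → ZMod 2) : db (∑ i ∈ s, f i) = ∑ i ∈ s, db (f i) := by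
  classical
  induction s using Finset.induction_on with
  | empty => simp [db_zero]
  | insert a s ha ih => rw [sum_insert ha, sum_insert ha, db_add, ih]

lemma lf_sum {ρ : Type} (o : ρ → ℕ) (ho : Function.Injective o) (s : Finset ρ) (a : ρ → ZMod 2) :
    lf (∑ i ∈ s, a i) = ∑ i ∈ s, lf (a i) +
      db (∑ i ∈ s, ∑ j ∈ s, if o i < o j then a i * a j else 0) := by
  classical
  induction s using Finset.induction_on with
  | empty => simp [db_zero, lf_zero]
  | insert x s hx ih =>
    simp only [sum_insert hx, lt_irrefl, if_false, zero_add, sum_add_distrib]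
    rw [lf_add, ih]
    have : (∑ j ∈ s, if o x < o j then a x * a j else 0) +
        ∑ i ∈ s, (if o i < o x then a i * a x else 0) = a x * ∑ i ∈ s, a i := by
      rw [← sum_add_distrib, mul_sum]
      refine sum_congr rfl fun j hj => ?_
      have hne : o x ≠ o j := fun h => hx (ho h ▸ hj)
      rcases lt_or_gt_of_ne hne with h | h
      · rw [if_pos h, if_neg (by omega), add_zero]
      · rw [if_neg (by omega), if_pos h, zero_add, mul_comm]
    rw [← add_assoc (∑ j ∈ s, if o x < o j then a x * a j else 0), this, db_add]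
    ring

section frames
variable {μ : Type} [Fintype μ]

noncomputable def ord (i : μ) : ℕ := (Fintype.equivFin μ i).val

lemma ord_inj : Function.Injective (ord (μ := μ)) := fun _ _ h =>
  (Fintype.equivFin μ).injective (Fin.ext h)

noncomputable def qf (M : Matrix μ μ (ZMod 2)) (ξ : μ → ZMod 2) : ZMod 4 :=
  ∑ i, lf (M i i * ξ i) + db (∑ i, ∑ j, if ord i < ord j then M i j * ξ i * ξ j else 0)

lemma qf_add (M M' : Matrix μ μ (ZMod 2)) (ξ : μ → ZMod 2) :
    qf (M + M') ξ = qf M ξ + qf M' ξ + db (∑ i, M i i * M' i i * ξ i) := by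
  have : (∑ i, ∑ j, if ord i < ord j then (M + M') i j * ξ i * ξ j else 0) =
      (∑ i, ∑ j, if ord i < ord j then M i j * ξ i * ξ j else 0) +
      (∑ i, ∑ j, if ord i < ord j then M' i j * ξ i * ξ j else 0) := by
    simp only [← sum_add_distrib]
    refine sum_congr rfl fun i _ => sum_congr rfl fun j _ => ?_
    split_ifs
    · simp [add_mul]
    · simp
  unfold qf
  rw [this, db_add, db_sum (f := fun i => M i i * M' i i * ξ i)]
  simp only [Matrix.add_apply, lf_add_mul, sum_add_distrib]
  ring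

def PP {μ : Type} (w : μ → ZMod 2) : Matrix μ μ (ZMod 2) := fun i j => w i * w j

lemma qf_PP (w ξ : μ → ZMod 2) : qf (PP w) ξ = lf (∑ i, w i * ξ i) := by
  rw [lf_sum ord ord_inj]
  unfold qf PP
  simp only [z2_sq]
  congr 2
  refine sum_congr rfl fun i _ => sum_congr rfl fun j _ => ?_
  split_ifs
  · ring
  · rfl

lemma qf_one [DecidableEq μ] (ξ : μ → ZMod 2) : qf (1 : Matrix μ μ (ZMod 2)) ξ = ∑ i, lf (ξ i) := by
  unfold qf
  have : (∑ i, ∑ j, if ord i < ord j then (1 : Matrix μ μ (ZMod 2)) i j * ξ i * ξ j else 0) = 0 := by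
    refine sum_eq_zero fun i _ => sum_eq_zero fun j _ => ?_
    split_ifs with h
    · have : i ≠ j := fun e => by rw [e] at h; exact lt_irrefl _ h
      simp [Matrix.one_apply_ne this]
    · rfl
  rw [this]
  simp [db_zero]

lemma qf_zero (ξ : μ → ZMod 2) : qf (0 : Matrix μ μ (ZMod 2)) ξ = 0 := by
  simp [qf, lf_zero, db_zero]

variable (β : Type) [Fintype β]

noncomputable def mult (M : Matrix μ μ (ZMod 2)) (ξ : β × μ → ZMod 2) : ℂ :=
  ∏ j, i4 (qf M fun i => ξ (j, i))

variable [DecidableEq μ] [DecidableEq β]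

noncomputable def Phi (M : Matrix μ μ (ZMod 2)) :
    Matrix (β × μ → ZMod 2) (β × μ → ZMod 2) ℂ := Theta (mult β M)

lemma Phi_add (M M' : Matrix μ μ (ZMod 2)) : Phi β (M + M') =
    Theta (chi fun p : β × μ => M p.2 p.2 * M' p.2 p.2) * (Phi β M * Phi β M') := by
  unfold Phi
  rw [← Theta_mul, ← Theta_mul]
  congr 1
  funext ξ
  simp only [mult, qf_add, i4_add, prod_mul_distrib, i4_db, sg_sum, chi, Fintype.prod_prod_type]
  ring

variable {V : Type} [AddCommGroup V] [Module ℂ V]

/-- the set of entries of the array `z` in the frame `M` -/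
def Av (M : Matrix μ μ (ZMod 2)) (z : (β × μ → ZMod 2) → V) : Set V :=
  Set.range (app (Phi β M) z)

lemma Av_add (M M' : Matrix μ μ (ZMod 2)) (z : (β × μ → ZMod 2) → V) :
    Av β (M + M') z = Av β M (app (Phi β M') z) := by
  unfold Av
  rw [Phi_add, app_mul, app_mul]
  ext x
  constructor
  · rintro ⟨g, rfl⟩
    exact ⟨_, (app_Theta_chi _ _ _).symm⟩
  · rintro ⟨g, rfl⟩
    refine ⟨g + fun p : β × μ => M p.2 p.2 * M' p.2 p.2, ?_⟩
    rw [app_Theta_chi, add_assoc, fn_add_self, add_zero]

lemma Av_zero (z : (β × μ → ZMod 2) → V) : Av β (0 : Matrix μ μ (ZMod 2)) z = Set.range z := by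
  unfold Av Phi
  have : mult β (0 : Matrix μ μ (ZMod 2)) = chi 0 := by
    funext ξ; simp [mult, qf_zero, i4_zero, chi_zero]
  rw [this]
  congr 1
  funext g
  rw [app_Theta_chi, add_zero]

lemma Av_one (z : (β × μ → ZMod 2) → V) :
    Av β (1 : Matrix μ μ (ZMod 2)) z = Set.range (app (Cpow (β × μ)) z) := by
  unfold Av Phi
  have : mult β (1 : Matrix μ μ (ZMod 2)) =
      fun ξ => ∑ s : β × μ → ZMod 2, (∏ k, cc (s k)) * chi s ξ := by
    funext ξ
    simp only [mult, qf_one, i4_sum, i4_lf, chi, ← prod_mul_distrib]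
    rw [← Fintype.prod_prod_type (f := fun p : β × μ => ∑ s : ZMod 2, cc s * sg (s * ξ p)),
      prod_univ_sum, Fintype.piFinset_univ]
  rw [this]
  congr 1
  funext g
  rw [app_Theta_sum, app_Cpow]

lemma app_Phi_PP (w : μ → ZMod 2) (z : (β × μ → ZMod 2) → V) (g : β × μ → ZMod 2) :
    app (Phi β (PP w)) z g =
      ∑ s : β → ZMod 2, (∏ j, cc (s j)) • z (g + fun p => s p.1 * w p.2) := by
  unfold Phi
  have : mult β (PP w) =
      fun ξ => ∑ s : β → ZMod 2, (∏ j, cc (s j)) * chi (fun p : β × μ => s p.1 * w p.2) ξ := by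
    funext ξ
    simp only [mult, qf_PP, i4_lf]
    rw [prod_univ_sum, Fintype.piFinset_univ]
    refine sum_congr rfl fun s _ => ?_
    simp only [prod_mul_distrib, chi, Fintype.prod_prod_type, mul_sum, sg_sum, mul_assoc]
  rw [this, app_Theta_sum]

lemma sum_prod_cc : ∑ s : β → ZMod 2, (∏ j, cc (s j)) = 1 := by
  rw [← Fintype.piFinset_univ, ← prod_univ_sum]
  refine prod_eq_one fun j _ => ?_
  rw [z2_sum]; simp [cc]; ring

lemma layer {τ : ℝ} (hτ : 0 ≤ τ) (hC : Cost (Cpow β) (τ * 2 ^ Fintype.card β)) (w : μ → ZMod 2)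
    (z : (β × μ → ZMod 2) → V) :
    RR (Set.range z) (τ * Fintype.card (β × μ → ZMod 2)) (Av β (PP w) z) := by
  by_cases hw : w = 0
  · refine (RR.done ?_).mono (by positivity)
    rintro _ ⟨g, rfl⟩
    refine ⟨g, ?_⟩
    rw [app_Phi_PP, hw]
    have : ∀ s : β → ZMod 2, (g + fun p : β × μ => s p.1 * (0 : μ → ZMod 2) p.2) = g := by
      intro s; funext p; simp
    simp only [this, ← sum_smul, sum_prod_cc, one_smul]
  · obtain ⟨i0, hi0⟩ := Function.ne_iff.mp hw
    have hi1 : w i0 = 1 := (z2_cases _).resolve_left hi0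
    set R : Finset (β × μ → ZMod 2) := univ.filter fun g => ∀ j, g (j, i0) = 0 with hR
    have hfam := RR.fam (S := Set.range z) R (fun _ => τ * 2 ^ Fintype.card β)
      (fun g0 => Set.range (app (Cpow β) fun s : β → ZMod 2 => z (g0 + fun p => s p.1 * w p.2)))
      (fun g0 _ => (hC V _).left (by rintro _ ⟨s, rfl⟩; exact ⟨_, rfl⟩))
    refine (hfam.right ?_).mono ?_
    · rintro _ ⟨g, rfl⟩
      simp only [Set.mem_iUnion]
      refine ⟨g + fun p => g (p.1, i0) * w p.2, ?_, fun j => g (j, i0), ?_⟩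
      · simp [hR, hi1, z2_add_self]
      · rw [app_Cpow, app_Phi_PP]
        refine sum_congr rfl fun s _ => ?_
        congr 2
        funext p
        simp only [Pi.add_apply, add_mul]
        rw [add_assoc, ← add_assoc (g (p.1, i0) * w p.2), z2_add_self, zero_add]
    · rw [sum_const, nsmul_eq_mul]
      have : R.card * 2 ^ Fintype.card β ≤ Fintype.card (β × μ → ZMod 2) := by
        have h1 : (R ×ˢ (univ : Finset (β → ZMod 2))).card ≤
            (univ : Finset (β × μ → ZMod 2)).card := by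
          apply card_le_card_of_injOn (fun q => q.1 + fun p => q.2 p.1 * w p.2)
          · intro q _; simp
          · rintro ⟨g, s⟩ h1 ⟨g', s'⟩ h2 e
            simp only [hR, coe_product, Set.mem_prod, coe_filter, mem_univ, true_and,
              Set.mem_ofPred_eq, coe_univ, Set.mem_univ, and_true] at h1 h2
            have hs : s = s' := by
              funext j
              have := congrFun e (j, i0)
              simpa [h1 j, h2 j, hi1] using this
            subst hs
            simp only [add_left_inj] at e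
            rw [e]
        simpa [card_product] using h1
      have h2 : (R.card : ℝ) * 2 ^ Fintype.card β ≤ Fintype.card (β × μ → ZMod 2) := by
        exact_mod_cast this
      nlinarith

end frames

end Vale.Agent.P344
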